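import Vale.Agent.P252.MathlibUsed
import Vale.Agent.P252.BernsteinDefs
import Vale.Agent.P252.AffineDefs
import Vale.Agent.P252.Defs
attribute [-instance] ProperSMul.toContinuousSMul IsTopologicalTorsor.toContinuousSMul IdemSemiring.toCanonicallyOrderedAdd IdemSemiring.toMulLeftMono IdemSemiring.toMulRightMono AddQuantale.instAddLeftMono AddQuantale.instAddRightMono Quantale.instMulLeftMono Quantale.instMulRightMono FiniteDimensional.rclike_to_real IsScalarTower.complexToReal FiniteDimensional.complexToReal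

set_option linter.all false

section

section

open scoped ContDiff Topology
open Set MeasureTheory

namespace Vale.Agent.P252

/-- The averaging operator `(A_k f)(s) = ∫₀¹ σ^k f(s σ²) dσ` on `C([0,1])`. -/
noncomputable def avgFun (k : ℕ) (f : C(unitInterval, ℝ)) : C(unitInterval, ℝ) where
  toFun := fun s => ∫ σ in (0:ℝ)..1, σ ^ k * f (projIcc 0 1 zero_le_one ((s:ℝ) * σ ^ 2))
  continuous_toFun := by
    apply intervalIntegral.continuous_parametric_intervalIntegral_of_continuous'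
    fun_prop

noncomputable def avgLM (k : ℕ) : C(unitInterval, ℝ) →ₗ[ℝ] C(unitInterval, ℝ) where
  toFun := avgFun k
  map_add' f g := by
    ext s
    simp only [avgFun, ContinuousMap.coe_mk, ContinuousMap.add_apply]
    rw [← intervalIntegral.integral_add]
    · congr 1; ext σ; ring
    · apply Continuous.intervalIntegrable; fun_prop
    · apply Continuous.intervalIntegrable; fun_prop
  map_smul' c f := by
    ext s
    simp only [avgFun, ContinuousMap.coe_mk, ContinuousMap.smul_apply, smul_eq_mul, RingHom.id_apply]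
    rw [← intervalIntegral.integral_const_mul]
    congr 1; ext σ; ring

noncomputable def avg (k : ℕ) : C(unitInterval, ℝ) →L[ℝ] C(unitInterval, ℝ) :=
  (avgLM k).mkContinuous 1 (by
    intro f
    rw [one_mul, ContinuousMap.norm_le _ (norm_nonneg _)]
    intro s
    have h := intervalIntegral.norm_integral_le_of_norm_le_const (a := 0) (b := 1) (C := ‖f‖)
      (f := fun σ => σ ^ k * f (projIcc 0 1 zero_le_one ((s:ℝ) * σ ^ 2))) (by
        intro σ hσ
        rw [uIoc_of_le zero_le_one] at hσ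
        rw [norm_mul]
        have h1 : ‖σ ^ k‖ ≤ 1 := by
          rw [norm_pow, Real.norm_of_nonneg hσ.1.le]
          exact pow_le_one₀ hσ.1.le hσ.2
        calc _ ≤ 1 * ‖f‖ := mul_le_mul h1 (f.norm_coe_le_norm _) (norm_nonneg _) zero_le_one
          _ = ‖f‖ := one_mul _)
    simpa [avgLM, avgFun] using h)

lemma avg_apply (k : ℕ) (f : C(unitInterval, ℝ)) (s : unitInterval) :
    avg k f s = ∫ σ in (0:ℝ)..1, σ ^ k * f (projIcc 0 1 zero_le_one ((s:ℝ) * σ ^ 2)) := rfl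

/-- the coordinate function -/
noncomputable def sI : C(unitInterval, ℝ) := ⟨fun s => (s:ℝ), continuous_subtype_val⟩

noncomputable def denI (p : ℕ) (ε : ℝ) (a : C(unitInterval, ℝ)) : C(unitInterval, ℝ) :=
  (p:ℝ) • (1 : C(unitInterval, ℝ)) + (4 * ε) • (sI * a)

noncomputable def F (p : ℕ) (v : ℝ × (C(unitInterval, ℝ) × C(unitInterval, ℝ))) :
    C(unitInterval, ℝ) × C(unitInterval, ℝ) :=
  (v.2.1 - 1 - (2 * v.1) • (sI * avg 1 (v.2.1 * (v.2.2 - v.2.1))),
   v.2.2 - avg (p + 1) ((1 + (2 * v.1) • (sI * v.2.2)) *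
      ((2 * (p:ℝ) + 3) • v.2.1 - ((p:ℝ) ^ 2) • v.2.2 + (4 * v.1) • (sI * (v.2.1 * v.2.1))
        + (12 * v.1) • (sI * (v.2.1 * v.2.2))) * Ring.inverse (denI p v.1 v.2.1) + (p:ℝ) • v.2.2))


/-- base point -/
noncomputable def x₀ (p : ℕ) : C(unitInterval, ℝ) × C(unitInterval, ℝ) :=
  (1, ((2 * (p:ℝ) + 3) / (p:ℝ)) • avg (p + 1) 1)

lemma inv_smul_one (p : ℕ) (hp : 0 < p) :
    Ring.inverse ((p:ℝ) • (1 : C(unitInterval, ℝ))) = ((p:ℝ)⁻¹) • (1 : C(unitInterval, ℝ)) := by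
  have hp' : (p:ℝ) ≠ 0 := by positivity
  have h : ((p:ℝ) • (1 : C(unitInterval, ℝ))) * (((p:ℝ)⁻¹) • (1 : C(unitInterval, ℝ))) = 1 := by
    rw [smul_mul_smul_comm, mul_inv_cancel₀ hp', one_mul, one_smul]
  have h' : (((p:ℝ)⁻¹) • (1 : C(unitInterval, ℝ))) * ((p:ℝ) • (1 : C(unitInterval, ℝ))) = 1 := by
    rw [smul_mul_smul_comm, inv_mul_cancel₀ hp', one_mul, one_smul]
  exact Ring.inverse_unit (⟨_, _, h, h'⟩ : (C(unitInterval, ℝ))ˣ)

lemma F_zero (p : ℕ) (hp : 0 < p) (x : C(unitInterval, ℝ) × C(unitInterval, ℝ)) :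
    F p (0, x) = (x.1 - 1, x.2 - ((2 * (p:ℝ) + 3) / (p:ℝ)) • avg (p + 1) x.1) := by
  have hp' : (p:ℝ) ≠ 0 := by positivity
  have h0 : denI p 0 x.1 = (p:ℝ) • (1 : C(unitInterval, ℝ)) := by simp only [denI, mul_zero, zero_smul, add_zero]
  unfold F
  simp only [h0, inv_smul_one p hp]
  ext1
  · simp only [mul_zero, zero_smul, sub_zero]
  · simp only [mul_zero, zero_smul, add_zero, one_mul]
    rw [← map_smul]
    congr 2
    ext s
    simp only [Algebra.mul_smul_comm, mul_one, ContinuousMap.add_apply, ContinuousMap.coe_smul, ContinuousMap.coe_sub, Pi.smul_apply, Pi.sub_apply, smul_eq_mul]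
    field_simp
    ring

lemma contDiffAt_F (p : ℕ) (hp : 0 < p) : ContDiffAt ℝ ω (F p) (0, x₀ p) := by
  have hp' : (p:ℝ) ≠ 0 := by (clear * - hp; positivity)
  have hinv : ContDiffAt ℝ ω (fun v : ℝ × (C(unitInterval, ℝ) × C(unitInterval, ℝ)) =>
      Ring.inverse (denI p v.1 v.2.1)) (0, x₀ p) := by
    have h0 : denI p 0 (x₀ p).1 = (p:ℝ) • (1 : C(unitInterval, ℝ)) := by simp only [denI, mul_zero, zero_smul, add_zero]
    have h : ((p:ℝ) • (1 : C(unitInterval, ℝ))) * (((p:ℝ)⁻¹) • (1 : C(unitInterval, ℝ))) = 1 := by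
      rw [smul_mul_smul_comm, mul_inv_cancel₀ hp', one_mul, one_smul]
    have h' : (((p:ℝ)⁻¹) • (1 : C(unitInterval, ℝ))) * ((p:ℝ) • (1 : C(unitInterval, ℝ))) = 1 := by
      rw [smul_mul_smul_comm, inv_mul_cancel₀ hp', one_mul, one_smul]
    have := contDiffAt_ringInverse ℝ (n := ω) (⟨_, _, h, h'⟩ : (C(unitInterval, ℝ))ˣ)
    refine ContDiffAt.comp (g := Ring.inverse)
      (f := fun v : ℝ × (C(unitInterval, ℝ) × C(unitInterval, ℝ)) => denI p v.1 v.2.1) (0, x₀ p) ?_ ?_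
    · simpa only [h0] using this
    · unfold denI
      fun_prop
  unfold F
  fun_prop


lemma F_base (p : ℕ) (hp : 0 < p) : F p (0, x₀ p) = 0 := by
  rw [F_zero p hp]
  simp only [x₀, sub_self, Prod.mk_eq_zero, and_self]

/-- linear part at `ε = 0` -/
noncomputable def L0 (p : ℕ) : (C(unitInterval, ℝ) × C(unitInterval, ℝ)) ≃L[ℝ]
    (C(unitInterval, ℝ) × C(unitInterval, ℝ)) :=
  ContinuousLinearEquiv.equivOfInverse
    ((ContinuousLinearMap.fst ℝ _ _).prod (ContinuousLinearMap.snd ℝ _ _ -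
      ((2 * (p:ℝ) + 3) / (p:ℝ)) • (avg (p + 1)).comp (ContinuousLinearMap.fst ℝ _ _)))
    ((ContinuousLinearMap.fst ℝ _ _).prod (ContinuousLinearMap.snd ℝ _ _ +
      ((2 * (p:ℝ) + 3) / (p:ℝ)) • (avg (p + 1)).comp (ContinuousLinearMap.fst ℝ _ _)))
    (by intro x; ext1 <;> simp) (by intro x; ext1 <;> simp)

lemma invertible_F (p : ℕ) (hp : 0 < p) :
    (fderiv ℝ (F p) (0, x₀ p) ∘L .inr ℝ ℝ (C(unitInterval, ℝ) × C(unitInterval, ℝ))).IsInvertible := by
  refine ⟨L0 p, ?_⟩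
  have h1 : HasFDerivAt (fun x => F p (0, x))
      (fderiv ℝ (F p) (0, x₀ p) ∘L .inr ℝ ℝ (C(unitInterval, ℝ) × C(unitInterval, ℝ))) (x₀ p) := by
    have hF := ((contDiffAt_F p hp).differentiableAt (by simp)).hasFDerivAt
    exact hF.comp (x₀ p) (hasFDerivAt_prodMk_right (0:ℝ) (x₀ p))
  have h2 : HasFDerivAt (fun x => F p (0, x)) (L0 p : (C(unitInterval, ℝ) × C(unitInterval, ℝ)) →L[ℝ]
    (C(unitInterval, ℝ) × C(unitInterval, ℝ))) (x₀ p) := by
    have h3 : (fun x => F p (0, x)) = fun x => (L0 p x) - ((1 : C(unitInterval, ℝ)), (0 : C(unitInterval, ℝ))) := by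
      funext x
      rw [F_zero p hp]
      ext1 <;> simp only [L0, ContinuousLinearEquiv.equivOfInverse_apply, ContinuousLinearMap.prod_apply, ContinuousLinearMap.coe_fst', sub_apply, ContinuousLinearMap.coe_snd', smul_apply, ContinuousLinearMap.comp_apply, Prod.mk_sub_mk, sub_zero]
    rw [h3]
    exact (L0 p).hasFDerivAt.sub_const _
  exact h2.unique h1


/-- `G p r a b = (1+2rb)((2p+3)a - p²b + 4ra² + 12rab)/(p+4ra) + pb`. -/
noncomputable def G (p : ℕ) (r a b : ℝ) : ℝ :=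
  (1 + 2 * r * b) * ((2 * (p:ℝ) + 3) * a - (p:ℝ) ^ 2 * b + 4 * r * (a * a) + 12 * r * (a * b))
    * (p + 4 * r * a)⁻¹ + p * b

lemma ringInverse_apply (d : C(unitInterval, ℝ)) (hd : ∀ s, d s ≠ 0) (s : unitInterval) :
    (Ring.inverse d) s = (d s)⁻¹ := by
  have hu : IsUnit d := (ContinuousMap.isUnit_iff_forall_ne_zero d).2 hd
  have h1 : Ring.inverse d * d = 1 := Ring.inverse_mul_cancel d hu
  have h2 : (Ring.inverse d) s * d s = 1 := by
    have := congrArg (fun f : C(unitInterval, ℝ) => f s) h1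
    simpa only [ContinuousMap.mul_apply, ContinuousMap.one_apply] using this
  exact eq_inv_of_mul_eq_one_left h2

/-- pointwise form of the equation `F p (ε, a, b) = 0` -/
def PW (p : ℕ) (ε : ℝ) (a b : C(unitInterval, ℝ)) : Prop :=
  (∀ s : unitInterval, a s = 1 + 2 * ε * (s * ∫ σ in (0:ℝ)..1, σ ^ 1 *
      (a (projIcc 0 1 zero_le_one ((s:ℝ) * σ ^ 2)) * (b (projIcc 0 1 zero_le_one ((s:ℝ) * σ ^ 2))
        - a (projIcc 0 1 zero_le_one ((s:ℝ) * σ ^ 2)))))) ∧
  (∀ s : unitInterval, b s = ∫ σ in (0:ℝ)..1, σ ^ (p + 1) *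
      G p (ε * (projIcc 0 1 zero_le_one ((s:ℝ) * σ ^ 2) : unitInterval))
        (a (projIcc 0 1 zero_le_one ((s:ℝ) * σ ^ 2)))
        (b (projIcc 0 1 zero_le_one ((s:ℝ) * σ ^ 2))))

lemma F_eq_zero_iff (p : ℕ) (ε : ℝ) (a b : C(unitInterval, ℝ))
    (hd : ∀ s : unitInterval, (p:ℝ) + 4 * (ε * s) * a s ≠ 0) :
    F p (ε, (a, b)) = 0 ↔ PW p ε a b := by
  have hd' : ∀ s, denI p ε a s ≠ 0 := by
    intro s
    have := hd s
    simp only [denI, ContinuousMap.add_apply, ContinuousMap.smul_apply, ContinuousMap.one_apply,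
      ContinuousMap.mul_apply, smul_eq_mul, sI, ContinuousMap.coe_mk]
    intro h
    apply this
    linarith
  have hG : ∀ s, ((1 + (2 * ε) • (sI * b)) *
      ((2 * (p:ℝ) + 3) • a - ((p:ℝ) ^ 2) • b + (4 * ε) • (sI * (a * a))
        + (12 * ε) • (sI * (a * b))) * Ring.inverse (denI p ε a) + (p:ℝ) • b) s
      = G p (ε * s) (a s) (b s) := by
    intro s
    simp only [ContinuousMap.add_apply, ContinuousMap.smul_apply, ContinuousMap.one_apply,
      ContinuousMap.mul_apply, smul_eq_mul, ContinuousMap.sub_apply, ringInverse_apply _ hd', G]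
    simp only [denI, ContinuousMap.add_apply, ContinuousMap.smul_apply, ContinuousMap.one_apply,
      ContinuousMap.mul_apply, smul_eq_mul, sI, ContinuousMap.coe_mk]
    ring_nf
  unfold F PW
  rw [Prod.mk_eq_zero]
  apply and_congr
  · rw [ContinuousMap.ext_iff]
    apply forall_congr'
    intro s
    simp only [ContinuousMap.sub_apply, ContinuousMap.smul_apply, ContinuousMap.one_apply,
      ContinuousMap.mul_apply, smul_eq_mul, ContinuousMap.zero_apply, avg_apply]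
    simp only [sI, ContinuousMap.coe_mk]
    constructor
    · intro h; linarith
    · intro h; linarith
  · rw [ContinuousMap.ext_iff]
    apply forall_congr'
    intro s
    rw [ContinuousMap.sub_apply, ContinuousMap.zero_apply, avg_apply, sub_eq_zero]
    simp only [hG]

/-- rescaling -/
noncomputable def resc (s₀ : unitInterval) (f : C(unitInterval, ℝ)) : C(unitInterval, ℝ) :=
  ⟨fun s => f (s * s₀), by fun_prop⟩

lemma resc_apply (s₀ s : unitInterval) (f : C(unitInterval, ℝ)) : resc s₀ f s = f (s * s₀) := rfl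

lemma proj_mul (s s₀ : unitInterval) (σ : ℝ) (h0 : 0 ≤ σ) (h1 : σ ≤ 1) :
    (projIcc 0 1 zero_le_one ((s:ℝ) * σ ^ 2) : unitInterval) * s₀
      = projIcc 0 1 zero_le_one (((s * s₀ : unitInterval):ℝ) * σ ^ 2) := by
  have hs := s.2
  have hs0 := s₀.2
  have hσ : σ ^ 2 ≤ 1 := by nlinarith only [h1, h0]
  have hσ0 : 0 ≤ σ ^ 2 := by positivity
  have m1 : (s:ℝ) * σ ^ 2 ∈ Icc (0:ℝ) 1 :=
    ⟨mul_nonneg hs.1 hσ0, mul_le_one₀ hs.2 hσ0 hσ⟩
  have m2 : ((s * s₀ : unitInterval):ℝ) * σ ^ 2 ∈ Icc (0:ℝ) 1 :=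
    ⟨mul_nonneg (s * s₀).2.1 hσ0, mul_le_one₀ (s * s₀).2.2 hσ0 hσ⟩
  rw [projIcc_of_mem _ m1, projIcc_of_mem _ m2]
  ext
  simp only [Icc.coe_mul]
  ring

lemma PW_resc (p : ℕ) (ε : ℝ) (a b : C(unitInterval, ℝ)) (s₀ : unitInterval) (h : PW p ε a b) :
    PW p (ε * s₀) (resc s₀ a) (resc s₀ b) := by
  obtain ⟨h1, h2⟩ := h
  constructor
  · intro s
    rw [resc_apply, h1 (s * s₀)]
    have : (∫ σ in (0:ℝ)..1, σ ^ 1 * (a (projIcc 0 1 zero_le_one (((s * s₀ : unitInterval):ℝ) * σ ^ 2)) *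
        (b (projIcc 0 1 zero_le_one (((s * s₀ : unitInterval):ℝ) * σ ^ 2))
        - a (projIcc 0 1 zero_le_one (((s * s₀ : unitInterval):ℝ) * σ ^ 2)))))
        = ∫ σ in (0:ℝ)..1, σ ^ 1 * (resc s₀ a (projIcc 0 1 zero_le_one ((s:ℝ) * σ ^ 2)) *
        (resc s₀ b (projIcc 0 1 zero_le_one ((s:ℝ) * σ ^ 2))
        - resc s₀ a (projIcc 0 1 zero_le_one ((s:ℝ) * σ ^ 2)))) := by
      apply intervalIntegral.integral_congr
      intro σ hσ
      rw [uIcc_of_le zero_le_one] at hσ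
      simp only [resc_apply, proj_mul s s₀ σ hσ.1 hσ.2]
    rw [this]
    simp only [Set.Icc.coe_mul]
    ring
  · intro s
    rw [resc_apply, h2 (s * s₀)]
    apply intervalIntegral.integral_congr
    intro σ hσ
    rw [uIcc_of_le zero_le_one] at hσ
    simp only [resc_apply]
    rw [← proj_mul s s₀ σ hσ.1 hσ.2]
    simp only [Set.Icc.coe_mul]
    ring_nf


lemma avg_one (k : ℕ) : avg k (1 : C(unitInterval, ℝ)) = ((k:ℝ) + 1)⁻¹ • (1 : C(unitInterval, ℝ)) := by
  ext s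
  rw [avg_apply]
  simp only [ContinuousMap.one_apply, mul_one, integral_pow, one_pow, ne_eq, Nat.add_eq_zero_iff, one_ne_zero, and_false, not_false_eq_true, zero_pow, sub_zero, one_div, ContinuousMap.coe_smul, ContinuousMap.coe_one, Pi.smul_apply, Pi.one_apply, smul_eq_mul]

lemma resc_norm_le (s₀ : unitInterval) (f : C(unitInterval, ℝ)) : ‖resc s₀ f‖ ≤ ‖f‖ := by
  rw [ContinuousMap.norm_le _ (norm_nonneg _)]
  intro s
  exact f.norm_coe_le_norm _

lemma resc_dist_le (p : ℕ) (s₀ : unitInterval) (a b : C(unitInterval, ℝ)) :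
    dist (resc s₀ a, resc s₀ b) (x₀ p) ≤ dist (a, b) (x₀ p) := by
  have h1 : resc s₀ (x₀ p).1 = (x₀ p).1 := by ext s; simp only [resc, x₀, ContinuousMap.one_apply, ContinuousMap.coe_mk]
  have h2 : resc s₀ (x₀ p).2 = (x₀ p).2 := by
    ext s; simp only [resc, x₀, avg_one, Nat.cast_add, Nat.cast_one, ContinuousMap.coe_smul, ContinuousMap.coe_one, Pi.smul_apply, Pi.one_apply, smul_eq_mul, mul_one, ContinuousMap.coe_mk]
  have h3 : resc s₀ a - (x₀ p).1 = resc s₀ (a - (x₀ p).1) := by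
    rw [← h1]; ext s; simp only [resc, x₀, ContinuousMap.one_apply, ContinuousMap.sub_apply, ContinuousMap.coe_mk]
  have h4 : resc s₀ b - (x₀ p).2 = resc s₀ (b - (x₀ p).2) := by
    rw [← h2]; ext s; simp only [resc, x₀, avg_one, Nat.cast_add, Nat.cast_one, ContinuousMap.coe_smul, ContinuousMap.coe_one, Pi.smul_apply, Pi.one_apply, smul_eq_mul, mul_one, ContinuousMap.sub_apply, ContinuousMap.coe_mk]
  rw [Prod.dist_eq, Prod.dist_eq]
  simp only [dist_eq_norm]
  rw [h3, h4]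
  exact max_le_max (resc_norm_le _ _) (resc_norm_le _ _)

theorem local_integral (p : ℕ) (hp : 0 < p) : ∃ (δ : ℝ) (α β : ℝ → ℝ), 0 < δ ∧ α 0 = 1 ∧
    (∀ ρ, |ρ| < δ → AnalyticAt ℝ α ρ ∧ AnalyticAt ℝ β ρ ∧ 0 < (p:ℝ) + 4 * ρ * α ρ) ∧
    (∀ ρ, |ρ| < δ → α ρ = 1 + 2 * ρ * ∫ σ in (0:ℝ)..1, σ ^ 1 *
      (α (ρ * σ ^ 2) * (β (ρ * σ ^ 2) - α (ρ * σ ^ 2)))) ∧
    (∀ ρ, |ρ| < δ → β ρ = ∫ σ in (0:ℝ)..1, σ ^ (p + 1) *
      G p (ρ * σ ^ 2) (α (ρ * σ ^ 2)) (β (ρ * σ ^ 2))) := by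
  have hcd := contDiffAt_F p hp
  have hinv := invertible_F p hp
  have hω : (ω : WithTop ℕ∞) ≠ 0 := by simp
  set ψ := hcd.implicitFunction hω hinv with hψ
  have h0 : ψ 0 = x₀ p := hcd.implicitFunction_apply_self hω hinv
  have hana : AnalyticAt ℝ ψ 0 := (hcd.contDiffAt_implicitFunction hω hinv).analyticAt
  have hiff : ∀ᶠ v in 𝓝 ((0:ℝ), x₀ p), F p v = F p (0, x₀ p) ↔ ψ v.1 = v.2 :=
    hcd.eventually_apply_eq_iff_implicitFunction hω hinv
  rw [F_base p hp] at hiff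
  obtain ⟨δ₁, hδ₁, h1⟩ := Metric.eventually_nhds_iff.1 hiff
  have hcont : ContinuousAt ψ 0 := hana.continuousAt
  have hc2 : ∀ᶠ ε in 𝓝 (0:ℝ), dist (ψ ε) (x₀ p) < min δ₁ (1/2) := by
    have := Metric.tendsto_nhds.1 hcont.tendsto (min δ₁ (1/2)) (by positivity)
    rwa [h0] at this
  obtain ⟨δ₂, hδ₂, h2⟩ := Metric.eventually_nhds_iff.1 (hc2.and hana.eventually_analyticAt)
  set δ := min (min δ₁ δ₂) (1/7) with hδ
  have hδpos : 0 < δ := by (clear * - hδ₁ hδ₂; positivity)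
  have hδ1 : δ ≤ δ₁ := (min_le_left _ _).trans (min_le_left _ _)
  have hδ2 : δ ≤ δ₂ := (min_le_left _ _).trans (min_le_right _ _)
  have hδ7 : δ ≤ 1/7 := min_le_right _ _
  -- positivity of the denominator
  have hden : ∀ (ε : ℝ) (a : C(unitInterval, ℝ)) (b : C(unitInterval, ℝ)) (s : unitInterval), |ε| < δ →
      dist (a, b) (x₀ p) < 1/2 → 0 < (p:ℝ) + 4 * (ε * s) * a s := by
    intro ε a b s hε hd
    have h3 : dist a (x₀ p).1 < 1/2 := lt_of_le_of_lt (by rw [Prod.dist_eq]; exact le_max_left _ _) hd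
    have h4 : |a s - 1| < 1/2 := by
      have := (ContinuousMap.dist_apply_le_dist (f := a) (g := (x₀ p).1) s).trans_lt h3
      simpa only [one_div, gt_iff_lt, x₀, ContinuousMap.one_apply, Real.dist_eq] using this
    rw [abs_lt] at h4
    have h5 : |ε * s| ≤ 1/7 := by
      rw [abs_mul, abs_of_nonneg s.2.1]
      calc |ε| * (s:ℝ) ≤ |ε| * 1 := mul_le_mul_of_nonneg_left s.2.2 (abs_nonneg _)
        _ ≤ 1/7 := by linarith only [hδ7, hε]
    have h6 : |4 * (ε * s) * a s| ≤ 4 * (1/7) * (3/2) := by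
      rw [abs_mul, abs_mul]
      have : |a s| ≤ 3/2 := by rw [abs_le]; constructor <;> linarith only [h4]
      have h44 : |(4:ℝ)| = 4 := by norm_num
      rw [h44]
      (clear * - h5 this; gcongr)
    have hp1 : (1:ℝ) ≤ p := by exact_mod_cast hp
    have := (abs_le.1 h6).1
    linarith only [hp1, this]
  have hψd : ∀ ε, |ε| < δ → dist (ψ ε) (x₀ p) < min δ₁ (1/2) ∧ AnalyticAt ℝ ψ ε := by
    intro ε hε
    apply h2
    rw [Real.dist_eq, sub_zero]
    exact lt_of_lt_of_le hε hδ2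
  have hdist : ∀ (ε : ℝ) (x : C(unitInterval, ℝ) × C(unitInterval, ℝ)), |ε| < δ → dist x (x₀ p) < δ₁ →
      (F p (ε, x) = 0 ↔ ψ ε = x) := by
    intro ε x hε hx
    apply h1
    rw [Prod.dist_eq]
    apply max_lt
    · simpa [Real.dist_eq] using lt_of_lt_of_le hε hδ1
    · exact hx
  have hPW : ∀ ε, |ε| < δ → PW p ε (ψ ε).1 (ψ ε).2 := by
    intro ε hε
    have h3 := (hψd ε hε).1
    rw [← F_eq_zero_iff]
    · exact (hdist ε (ψ ε) hε (lt_of_lt_of_le h3 (min_le_left _ _))).2 rfl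
    · intro s
      exact (hden ε (ψ ε).1 (ψ ε).2 s hε (lt_of_lt_of_le h3 (min_le_right _ _))).ne'
  have hres : ∀ ε, |ε| < δ → ∀ s : unitInterval, ψ (ε * s) = (resc s (ψ ε).1, resc s (ψ ε).2) := by
    intro ε hε s
    have h3 := (hψd ε hε).1
    have hεs : |ε * s| < δ := by
      rw [abs_mul, abs_of_nonneg s.2.1]
      calc |ε| * (s:ℝ) ≤ |ε| * 1 := mul_le_mul_of_nonneg_left s.2.2 (abs_nonneg _)
        _ < δ := by linarith only [hε]
    have h4 : dist (resc s (ψ ε).1, resc s (ψ ε).2) (x₀ p) < min δ₁ (1/2) :=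
      (resc_dist_le p s _ _).trans_lt h3
    rw [← hdist (ε * s) _ hεs (lt_of_lt_of_le h4 (min_le_left _ _))]
    rw [F_eq_zero_iff]
    · exact PW_resc p ε _ _ s (hPW ε hε)
    · intro s'
      exact (hden (ε * s) _ _ s' hεs (lt_of_lt_of_le h4 (min_le_right _ _))).ne'
  have hα : ∀ ε, |ε| < δ → ∀ s : unitInterval, (ψ (ε * s)).1 1 = (ψ ε).1 s := by
    intro ε hε s
    rw [hres ε hε s]
    simp only [resc, ContinuousMap.coe_mk, one_mul]
  have hβ : ∀ ε, |ε| < δ → ∀ s : unitInterval, (ψ (ε * s)).2 1 = (ψ ε).2 s := by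
    intro ε hε s
    rw [hres ε hε s]
    simp only [resc, ContinuousMap.coe_mk, one_mul]
  refine ⟨δ, fun ρ => (ψ ρ).1 1, fun ρ => (ψ ρ).2 1, hδpos, ?_, ?_, ?_, ?_⟩
  · simp only [h0, x₀, ContinuousMap.one_apply]
  · intro ρ hρ
    obtain ⟨h3, h4⟩ := hψd ρ hρ
    refine ⟨?_, ?_, ?_⟩
    · have := ((ContinuousMap.evalCLM ℝ (1 : unitInterval)).comp
        (ContinuousLinearMap.fst ℝ C(unitInterval, ℝ) C(unitInterval, ℝ))).analyticAt (ψ ρ)
      exact this.comp h4
    · have := ((ContinuousMap.evalCLM ℝ (1 : unitInterval)).comp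
        (ContinuousLinearMap.snd ℝ C(unitInterval, ℝ) C(unitInterval, ℝ))).analyticAt (ψ ρ)
      exact this.comp h4
    · have := hden ρ (ψ ρ).1 (ψ ρ).2 1 hρ (lt_of_lt_of_le h3 (min_le_right _ _))
      simpa only [gt_iff_lt, Icc.coe_one, mul_one] using this
  · intro ρ hρ
    have h3 := (hPW ρ hρ).1 1
    simp only
    rw [h3]
    have : (∫ σ in (0:ℝ)..1, σ ^ 1 *
      ((ψ ρ).1 (projIcc 0 1 zero_le_one (((1 : unitInterval):ℝ) * σ ^ 2)) *
        ((ψ ρ).2 (projIcc 0 1 zero_le_one (((1 : unitInterval):ℝ) * σ ^ 2))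
        - (ψ ρ).1 (projIcc 0 1 zero_le_one (((1 : unitInterval):ℝ) * σ ^ 2)))))
        = ∫ σ in (0:ℝ)..1, σ ^ 1 *
      ((ψ (ρ * σ ^ 2)).1 1 * ((ψ (ρ * σ ^ 2)).2 1 - (ψ (ρ * σ ^ 2)).1 1)) := by
      apply intervalIntegral.integral_congr
      intro σ hσ
      rw [uIcc_of_le zero_le_one] at hσ
      have m1 : ((1 : unitInterval):ℝ) * σ ^ 2 ∈ Icc (0:ℝ) 1 := by
        simp only [Set.Icc.coe_one, one_mul]
        exact ⟨by (clear * -; positivity), pow_le_one₀ hσ.1 hσ.2⟩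
      have m2 : σ ^ 2 ∈ Icc (0:ℝ) 1 := by simpa only [mem_Icc, sq_le_one_iff_abs_le_one, Icc.coe_one, one_mul] using m1
      have e1 := hα ρ hρ ⟨σ ^ 2, m2⟩
      have e2 := hβ ρ hρ ⟨σ ^ 2, m2⟩
      simp only [projIcc_of_mem _ m1]
      simp only at e1 e2
      rw [e1, e2]
      congr 3 <;> simp only [Icc.coe_one, one_mul]
    rw [this]
    simp only [Set.Icc.coe_one, one_mul]
  · intro ρ hρ
    have h3 := (hPW ρ hρ).2 1
    simp only
    rw [h3]
    apply intervalIntegral.integral_congr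
    intro σ hσ
    rw [uIcc_of_le zero_le_one] at hσ
    have m1 : ((1 : unitInterval):ℝ) * σ ^ 2 ∈ Icc (0:ℝ) 1 := by
      simp only [Set.Icc.coe_one, one_mul]
      exact ⟨by (clear * -; positivity), pow_le_one₀ hσ.1 hσ.2⟩
    have m2 : σ ^ 2 ∈ Icc (0:ℝ) 1 := by simpa only [mem_Icc, sq_le_one_iff_abs_le_one, Icc.coe_one, one_mul] using m1
    have e1 := hα ρ hρ ⟨σ ^ 2, m2⟩
    have e2 := hβ ρ hρ ⟨σ ^ 2, m2⟩
    simp only [projIcc_of_mem _ m1]
    simp only at e1 e2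
    rw [e1, e2]
    simp only [Icc.coe_one, one_mul]


lemma mul_sq_abs_lt {δ x t : ℝ} (hx : |x| < δ) (h0 : 0 ≤ t) (h1 : t ≤ 1) : |x * t ^ 2| < δ := by
  rw [abs_mul, abs_of_nonneg (by positivity : (0:ℝ) ≤ t ^ 2)]
  have : t ^ 2 ≤ 1 := by nlinarith only [h1, h0]
  calc |x| * t ^ 2 ≤ |x| * 1 := mul_le_mul_of_nonneg_left this (abs_nonneg _)
    _ < δ := by linarith

theorem avg_ode (k : ℕ) (δ : ℝ) (φ φ' : ℝ → ℝ) (hφ : ∀ ρ, |ρ| < δ → HasDerivAt φ (φ' ρ) ρ)
    (hφ' : ContinuousOn φ' (Ioo (-δ) δ)) (ρ : ℝ) (hρ : |ρ| < δ) :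
    ∃ B₁ : ℝ, HasDerivAt (fun ρ => ∫ σ in (0:ℝ)..1, σ ^ (k + 1) * φ (ρ * σ ^ 2)) B₁ ρ ∧
      2 * ρ * B₁ + (k + 2) * (∫ σ in (0:ℝ)..1, σ ^ (k + 1) * φ (ρ * σ ^ 2)) = φ ρ := by
  have hmem : ∀ x, |x| < δ → x ∈ Ioo (-δ) δ := fun x hx => abs_lt.1 hx
  have hφc : ContinuousOn φ (Ioo (-δ) δ) := fun x hx =>
    (hφ x (abs_lt.2 hx)).continuousAt.continuousWithinAt
  set r := (|ρ| + δ) / 2 with hr
  have hr1 : |ρ| < r := by linarith only [hρ, hr]
  have hr2 : r < δ := by linarith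
  have hr0 : 0 < r := lt_of_le_of_lt (abs_nonneg _) hr1
  have hsub : Icc (-r) r ⊆ Ioo (-δ) δ := fun x hx => ⟨by linarith [hx.1], by linarith [hx.2]⟩
  obtain ⟨C, hC⟩ := isCompact_Icc.exists_bound_of_continuousOn (hφ'.mono hsub)
  have hmaps : ∀ x, |x| < δ → MapsTo (fun t : ℝ => x * t ^ 2) (uIcc (0:ℝ) 1) (Ioo (-δ) δ) := by
    intro x hx t ht
    rw [uIcc_of_le zero_le_one] at ht
    exact hmem _ (mul_sq_abs_lt hx ht.1 ht.2)
  have hFc : ∀ x, |x| < δ → ContinuousOn (fun t : ℝ => t ^ (k + 1) * φ (x * t ^ 2)) (uIcc (0:ℝ) 1) := by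
    intro x hx
    apply ContinuousOn.mul (by fun_prop)
    exact hφc.comp (by fun_prop) (hmaps x hx)
  have hF'c : ∀ x, |x| < δ →
      ContinuousOn (fun t : ℝ => t ^ (k + 1) * (φ' (x * t ^ 2) * t ^ 2)) (uIcc (0:ℝ) 1) := by
    intro x hx
    apply ContinuousOn.mul (by fun_prop)
    apply ContinuousOn.mul _ (by fun_prop)
    exact hφ'.comp (by fun_prop) (hmaps x hx)
  have hmeas : ∀ g : ℝ → ℝ, ContinuousOn g (uIcc (0:ℝ) 1) →
      AEStronglyMeasurable g (volume.restrict (uIoc (0:ℝ) 1)) := by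
    intro g hg
    exact (hg.mono uIoc_subset_uIcc).aestronglyMeasurable measurableSet_uIoc
  have key := intervalIntegral.hasDerivAt_integral_of_dominated_loc_of_deriv_le (μ := volume)
    (a := 0) (b := 1) (F := fun (x:ℝ) (t:ℝ) => t ^ (k + 1) * φ (x * t ^ 2))
    (F' := fun (x:ℝ) (t:ℝ) => t ^ (k + 1) * (φ' (x * t ^ 2) * t ^ 2)) (x₀ := ρ)
    (s := Ioo (-r) r) (bound := fun _ => C)
    (Ioo_mem_nhds (abs_lt.1 hr1).1 (abs_lt.1 hr1).2)
    (by
      filter_upwards [Ioo_mem_nhds (abs_lt.1 hρ).1 (abs_lt.1 hρ).2] with x hx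
      exact hmeas _ (hFc x (abs_lt.2 hx)))
    ((hFc ρ hρ).intervalIntegrable)
    (hmeas _ (hF'c ρ hρ))
    (by
      refine Filter.Eventually.of_forall fun t ht x hx => ?_
      rw [uIoc_of_le zero_le_one] at ht
      have hx' : |x * t ^ 2| < r := mul_sq_abs_lt (abs_lt.2 hx) ht.1.le ht.2
      have h1 := hC (x * t ^ 2) ⟨(abs_lt.1 hx').1.le, (abs_lt.1 hx').2.le⟩
      rw [norm_mul, norm_mul]
      have h2 : ‖t ^ (k + 1)‖ ≤ 1 := by
        rw [norm_pow, Real.norm_of_nonneg ht.1.le]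
        exact pow_le_one₀ ht.1.le ht.2
      have h3 : ‖t ^ 2‖ ≤ 1 := by
        rw [norm_pow, Real.norm_of_nonneg ht.1.le]
        exact pow_le_one₀ ht.1.le ht.2
      have hC0 : 0 ≤ C := le_trans (norm_nonneg _) h1
      calc ‖t ^ (k + 1)‖ * (‖φ' (x * t ^ 2)‖ * ‖t ^ 2‖) ≤ 1 * (C * 1) := by
            (clear * - h2 h1 h3 hC0; gcongr)
        _ = C := by ring)
    (by simp)
    (by
      refine Filter.Eventually.of_forall fun t ht x hx => ?_
      rw [uIoc_of_le zero_le_one] at ht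
      have hx' : |x * t ^ 2| < δ := mul_sq_abs_lt ((abs_lt.2 hx).trans hr2) ht.1.le ht.2
      have h1 : HasDerivAt (fun x : ℝ => x * t ^ 2) (t ^ 2) x := by
        simpa only [id_eq, one_mul] using (hasDerivAt_id x).mul_const (t ^ 2)
      exact ((hφ _ hx').comp x h1).const_mul _)
  refine ⟨_, key.2, ?_⟩
  have h2 : (∫ σ in (0:ℝ)..1, (2 * ρ * (σ ^ (k + 1) * (φ' (ρ * σ ^ 2) * σ ^ 2))
      + (k + 2) * (σ ^ (k + 1) * φ (ρ * σ ^ 2)))) = φ ρ := by
    have := intervalIntegral.integral_eq_sub_of_hasDerivAt (a := (0:ℝ)) (b := 1)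
      (f := fun σ => σ ^ (k + 2) * φ (ρ * σ ^ 2))
      (f' := fun σ => (2 * ρ * (σ ^ (k + 1) * (φ' (ρ * σ ^ 2) * σ ^ 2))
      + (k + 2) * (σ ^ (k + 1) * φ (ρ * σ ^ 2)))) (by
        intro σ hσ
        rw [uIcc_of_le zero_le_one] at hσ
        have hx' : |ρ * σ ^ 2| < δ := mul_sq_abs_lt hρ hσ.1 hσ.2
        have h1 : HasDerivAt (fun σ : ℝ => ρ * σ ^ 2) (ρ * (2 * σ)) σ := by
          have := (hasDerivAt_pow 2 σ).const_mul ρ
          simpa only [Nat.cast_ofNat, Nat.add_one_sub_one, pow_one] using this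
        have h3 := (hasDerivAt_pow (k + 2) σ).mul ((hφ _ hx').comp σ h1)
        convert! h3 using 1
        simp only [Function.comp]
        push_cast
        ring) (by
        apply ContinuousOn.intervalIntegrable
        exact ((hF'c ρ hρ).const_mul _).add ((hFc ρ hρ).const_mul _))
    rw [this]
    simp
  rw [intervalIntegral.integral_add, intervalIntegral.integral_const_mul,
    intervalIntegral.integral_const_mul] at h2
  · exact h2
  · exact ((hF'c ρ hρ).const_mul _).intervalIntegrable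
  · exact ((hFc ρ hρ).const_mul _).intervalIntegrable


theorem local_ode (p : ℕ) (hp : 0 < p) : ∃ (δ : ℝ) (α β : ℝ → ℝ), 0 < δ ∧ α 0 = 1 ∧
    β 0 = (2 * p + 3) / (p * (p + 2)) ∧
    (∀ ρ, |ρ| < δ → AnalyticAt ℝ α ρ ∧ AnalyticAt ℝ β ρ ∧ 0 < (p:ℝ) + 4 * ρ * α ρ ∧
      HasDerivAt α (α ρ * (β ρ - α ρ)) ρ ∧
      (p + 4 * ρ * α ρ) * (2 * ρ * deriv β ρ + 2 * β ρ)
        = (1 + 2 * ρ * β ρ) * ((2 * p + 3) * α ρ - (p:ℝ) ^ 2 * β ρ + 4 * ρ * (α ρ) ^ 2
          + 12 * ρ * α ρ * β ρ)) := by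
  obtain ⟨δ, α, β, hδ, hα0, hana, hα, hβ⟩ := local_integral p hp
  have hp' : (0:ℝ) < p := by exact_mod_cast hp
  have mem : ∀ ρ, |ρ| < δ → ∀ᶠ x in 𝓝 ρ, |x| < δ := by
    intro ρ hρ
    exact (continuous_abs.continuousAt.eventually_lt continuousAt_const hρ)
  -- the alpha equation
  have hφ1 : ∀ ρ, |ρ| < δ → AnalyticAt ℝ (fun ρ => α ρ * (β ρ - α ρ)) ρ := by
    intro ρ hρ
    obtain ⟨h1, h2, -⟩ := hana ρ hρ
    exact h1.mul (h2.sub h1)
  have hφ2 : ∀ ρ, |ρ| < δ → AnalyticAt ℝ (fun ρ => G p ρ (α ρ) (β ρ)) ρ := by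
    intro ρ hρ
    obtain ⟨h1, h2, h3⟩ := hana ρ hρ
    have hden : AnalyticAt ℝ (fun ρ => ((p:ℝ) + 4 * ρ * α ρ)⁻¹) ρ := by
      apply AnalyticAt.inv
      · fun_prop
      · exact h3.ne'
    unfold G
    fun_prop
  have gen : ∀ φ : ℝ → ℝ, (∀ ρ, |ρ| < δ → AnalyticAt ℝ φ ρ) →
      (∀ ρ, |ρ| < δ → HasDerivAt φ (deriv φ ρ) ρ) ∧ ContinuousOn (deriv φ) (Ioo (-δ) δ) := by
    intro φ h
    refine ⟨fun ρ hρ => (h ρ hρ).differentiableAt.hasDerivAt, fun ρ hρ => ?_⟩
    exact (h ρ (abs_lt.2 hρ)).deriv.continuousAt.continuousWithinAt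
  refine ⟨δ, α, β, hδ, hα0, ?_, ?_⟩
  · have h := hβ 0 (by simpa using hδ)
    simp only [zero_mul, hα0, G] at h
    rw [intervalIntegral.integral_mul_const, integral_pow] at h
    have hp2 : ((p:ℝ) + 2) ≠ 0 := by positivity
    have hp3 : ((p:ℝ) + 1 + 1) ≠ 0 := by positivity
    field_simp at h ⊢
    push_cast at h
    norm_num at h
    linarith
  · intro ρ hρ
    obtain ⟨h1, h2, h3⟩ := hana ρ hρ
    refine ⟨h1, h2, h3, ?_, ?_⟩
    · obtain ⟨g1, g2⟩ := gen _ hφ1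
      obtain ⟨B₁, hB, hB'⟩ := avg_ode 0 δ _ _ g1 g2 ρ hρ
      have e1 : HasDerivAt (fun ρ => 1 + 2 * ρ * ∫ σ in (0:ℝ)..1, σ ^ (0 + 1) *
          (α (ρ * σ ^ 2) * (β (ρ * σ ^ 2) - α (ρ * σ ^ 2))))
          (2 * (∫ σ in (0:ℝ)..1, σ ^ (0 + 1) *
          (α (ρ * σ ^ 2) * (β (ρ * σ ^ 2) - α (ρ * σ ^ 2)))) + 2 * ρ * B₁) ρ := by
        have h4 : HasDerivAt (fun ρ : ℝ => 2 * ρ) 2 ρ := by
          simpa using (hasDerivAt_id ρ).const_mul 2
        exact (h4.mul hB).const_add 1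
      have e2 : α =ᶠ[𝓝 ρ] (fun ρ => 1 + 2 * ρ * ∫ σ in (0:ℝ)..1, σ ^ (0 + 1) *
          (α (ρ * σ ^ 2) * (β (ρ * σ ^ 2) - α (ρ * σ ^ 2)))) := by
        filter_upwards [mem ρ hρ] with x hx
        exact hα x hx
      have e3 := e1.congr_of_eventuallyEq e2
      convert! e3 using 1
      rw [← hB']
      push_cast
      ring
    · obtain ⟨g1, g2⟩ := gen _ hφ2
      obtain ⟨B₁, hB, hB'⟩ := avg_ode p δ _ _ g1 g2 ρ hρ
      have e2 : β =ᶠ[𝓝 ρ] (fun ρ => ∫ σ in (0:ℝ)..1, σ ^ (p + 1) *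
          G p (ρ * σ ^ 2) (α (ρ * σ ^ 2)) (β (ρ * σ ^ 2))) := by
        filter_upwards [mem ρ hρ] with x hx
        exact hβ x hx
      have e3 := hB.congr_of_eventuallyEq e2
      have e4 : deriv β ρ = B₁ := e3.deriv
      have e5 := e2.self_of_nhds
      beta_reduce at hB' e5
      rw [← e5] at hB'
      rw [e4]
      unfold G at hB'
      have : 2 * ρ * B₁ + 2 * β ρ = (1 + 2 * ρ * β ρ) * ((2 * (p:ℝ) + 3) * α ρ - (p:ℝ) ^ 2 * β ρ
        + 4 * ρ * (α ρ * α ρ) + 12 * ρ * (α ρ * β ρ)) * (p + 4 * ρ * α ρ)⁻¹ := by linarith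
      rw [this]
      (clear * - h3; field_simp)

end Vale.Agent.P252
end
end

section

section

open scoped ContDiff NNReal Topology
open Set

namespace Vale.Agent.P252

/-- The vector field of the phase-plane system. -/
noncomputable def vf (p : ℕ) (z : ℝ × ℝ) : ℝ × ℝ :=
  (z.1 * (z.2 + 1 - z.1),
    z.2 * ((p:ℝ)^2 + (2*p-3)*z.1 + 2*(z.1)^2 - ((p:ℝ)^2 - 6*z.1)*z.2)/(p+2*z.1))

/-- The compact box. -/
def box : Set (ℝ × ℝ) := Icc 0 (9/2) ×ˢ Icc 1 (7/2)

theorem isCompact_box : IsCompact box := isCompact_Icc.prod isCompact_Icc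

theorem convex_box : Convex ℝ box := (convex_Icc _ _).prod (convex_Icc _ _)

theorem contDiffOn_vf {p : ℕ} (hp : 9 ≤ p) : ContDiffOn ℝ ∞ (vf p) box := by
  have hp' : (9:ℝ) ≤ p := by exact_mod_cast hp
  have h1 : ContDiffOn ℝ ∞ (fun z : ℝ × ℝ => z.1) box := contDiff_fst.contDiffOn
  have h2 : ContDiffOn ℝ ∞ (fun z : ℝ × ℝ => z.2) box := contDiff_snd.contDiffOn
  refine ContDiffOn.prodMk ?_ ?_
  · exact h1.mul ((h2.add contDiffOn_const).sub h1)
  · refine ContDiffOn.div ?_ ?_ ?_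
    · refine h2.mul (ContDiffOn.sub ?_ ?_)
      · exact (contDiffOn_const.add (contDiffOn_const.mul h1)).add (contDiffOn_const.mul (h1.pow 2))
      · exact (contDiffOn_const.sub (contDiffOn_const.mul h1)).mul h2
    · exact contDiffOn_const.add (contDiffOn_const.mul h1)
    · rintro z ⟨hz1, -⟩
      have := hz1.1
      (clear * - hp this; positivity)

/-- The vector field is Lipschitz on the box. -/
theorem exists_lip {p : ℕ} (hp : 9 ≤ p) : ∃ K : ℝ≥0, LipschitzOnWith K (vf p) box :=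
  (contDiffOn_vf hp).exists_lipschitzOnWith (by simp) convex_box isCompact_box

/-- The projection to the box. -/
noncomputable def prj (z : ℝ × ℝ) : ℝ × ℝ :=
  ((projIcc (0:ℝ) (9/2) (by norm_num) z.1 : ℝ), (projIcc (1:ℝ) (7/2) (by norm_num) z.2 : ℝ))

theorem prj_mem (z : ℝ × ℝ) : prj z ∈ box :=
  ⟨(projIcc (0:ℝ) (9/2) (by norm_num) z.1).2, (projIcc (1:ℝ) (7/2) (by norm_num) z.2).2⟩

theorem prj_of_mem {z : ℝ × ℝ} (hz : z ∈ box) : prj z = z := by
  obtain ⟨h1, h2⟩ := hz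
  unfold prj
  rw [projIcc_of_mem _ h1, projIcc_of_mem _ h2]

theorem lip_prj : LipschitzWith 1 prj := by
  have h1 : LipschitzWith 1 (fun z : ℝ × ℝ => (projIcc (0:ℝ) (9/2) (by norm_num) z.1 : ℝ)) := by
    have := (LipschitzWith.subtype_val (Icc (0:ℝ) (9/2))).comp
      ((LipschitzWith.projIcc (show (0:ℝ) ≤ 9/2 by norm_num)).comp
        (LipschitzWith.prod_fst (α := ℝ) (β := ℝ)))
    simpa [Function.comp_def] using this
  have h2 : LipschitzWith 1 (fun z : ℝ × ℝ => (projIcc (1:ℝ) (7/2) (by norm_num) z.2 : ℝ)) := by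
    have := (LipschitzWith.subtype_val (Icc (1:ℝ) (7/2))).comp
      ((LipschitzWith.projIcc (show (1:ℝ) ≤ 7/2 by norm_num)).comp
        (LipschitzWith.prod_snd (α := ℝ) (β := ℝ)))
    simpa [Function.comp_def] using this
  have := h1.prodMk h2
  rw [max_self] at this
  exact this

/-- The clamped vector field. -/
noncomputable def cvf (p : ℕ) (z : ℝ × ℝ) : ℝ × ℝ := vf p (prj z)

theorem lip_cvf {p : ℕ} (hp : 9 ≤ p) : ∃ K : ℝ≥0, LipschitzWith K (cvf p) := by
  obtain ⟨K, hK⟩ := exists_lip hp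
  refine ⟨K, ?_⟩
  have h : LipschitzOnWith K (cvf p) univ := by
    have := hK.comp (g := vf p) (f := prj) (s := univ) (lip_prj.lipschitzOnWith) (fun z _ => prj_mem z)
    rw [mul_one] at this
    exact this
  exact lipschitzOnWith_univ.1 h

theorem bdd_cvf {p : ℕ} (hp : 9 ≤ p) : ∃ L : ℝ≥0, ∀ z, ‖cvf p z‖ ≤ L := by
  obtain ⟨C, hC⟩ := isCompact_box.exists_bound_of_continuousOn (contDiffOn_vf hp).continuousOn
  refine ⟨⟨max C 0, le_max_right _ _⟩, fun z => ?_⟩
  exact (hC _ (prj_mem z)).trans (le_max_left _ _)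

/-- Solutions of the clamped equation on `[t₀, t₀ + n]`. -/
theorem exists_clamped_Icc {p : ℕ} (hp : 9 ≤ p) (t₀ : ℝ) (z₀ : ℝ × ℝ) (T : ℝ) (hT : t₀ ≤ T) :
    ∃ α : ℝ → ℝ × ℝ, α t₀ = z₀ ∧
      ∀ t ∈ Icc t₀ T, HasDerivWithinAt α (cvf p (α t)) (Icc t₀ T) t := by
  obtain ⟨K, hK⟩ := lip_cvf hp
  obtain ⟨L, hL⟩ := bdd_cvf hp
  have hpl : IsPicardLindelof (fun _ => cvf p) (tmin := t₀) (tmax := T) ⟨t₀, le_rfl, hT⟩ z₀
      (L * Real.toNNReal (T - t₀)) 0 L K := by
    refine IsPicardLindelof.of_time_independent (fun x _ => hL x) hK.lipschitzOnWith ?_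
    have h1 : max (T - t₀) (t₀ - t₀) = T - t₀ := max_eq_left (by linarith only [hT])
    rw [NNReal.coe_mul, NNReal.coe_zero, sub_zero, Real.coe_toNNReal _ (sub_nonneg.2 hT)]
    rw [h1]
  exact hpl.exists_eq_forall_mem_Icc_hasDerivWithinAt₀

theorem unique_clamped {p : ℕ} (hp : 9 ≤ p) {t₀ T : ℝ} {α β : ℝ → ℝ × ℝ}
    (hα : ∀ t ∈ Icc t₀ T, HasDerivWithinAt α (cvf p (α t)) (Icc t₀ T) t)
    (hβ : ∀ t ∈ Icc t₀ T, HasDerivWithinAt β (cvf p (β t)) (Icc t₀ T) t)
    (h0 : α t₀ = β t₀) : EqOn α β (Icc t₀ T) := by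
  obtain ⟨K, hK⟩ := lip_cvf hp
  refine ODE_solution_unique_of_mem_Icc_right (v := fun _ => cvf p) (s := fun _ => univ) (K := K)
    (fun t _ => hK.lipschitzOnWith) ?_ ?_ (fun _ _ => mem_univ _) ?_ ?_ (fun _ _ => mem_univ _) h0
  · exact fun t ht => (hα t ht).continuousWithinAt
  · intro t ht
    exact (hα t ⟨ht.1, ht.2.le⟩).mono_of_mem_nhdsWithin (Icc_mem_nhdsGE_of_mem ht)
  · exact fun t ht => (hβ t ht).continuousWithinAt
  · intro t ht
    exact (hβ t ⟨ht.1, ht.2.le⟩).mono_of_mem_nhdsWithin (Icc_mem_nhdsGE_of_mem ht)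

theorem exists_clamped {p : ℕ} (hp : 9 ≤ p) (t₀ : ℝ) (z₀ : ℝ × ℝ) :
    ∃ α : ℝ → ℝ × ℝ, α t₀ = z₀ ∧
      ∀ t, t₀ ≤ t → HasDerivWithinAt α (cvf p (α t)) (Ici t₀) t := by
  have hT : ∀ n : ℕ, t₀ ≤ t₀ + n := fun n => by simp only [le_add_iff_nonneg_right, Nat.cast_nonneg]
  choose β hβ0 hβ using fun n : ℕ => exists_clamped_Icc hp t₀ z₀ (t₀ + n) (hT n)
  have hmono : ∀ m n : ℕ, m ≤ n → EqOn (β m) (β n) (Icc t₀ (t₀ + m)) := by
    intro m n hmn
    have hsub : Icc t₀ (t₀ + m) ⊆ Icc t₀ (t₀ + n) :=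
      Icc_subset_Icc_right (by have : (m:ℝ) ≤ n := by exact_mod_cast hmn
                               linarith only [this])
    refine unique_clamped hp (hβ m) (fun t ht => (hβ n t (hsub ht)).mono hsub) ?_
    rw [hβ0, hβ0]
  let α : ℝ → ℝ × ℝ := fun t => β (⌈t - t₀⌉₊) t
  have hα : ∀ n : ℕ, EqOn α (β n) (Icc t₀ (t₀ + n)) := by
    intro n t ht
    have h1 : ⌈t - t₀⌉₊ ≤ n := Nat.ceil_le.2 (by linarith only [ht.2])
    have h2 := hmono _ _ h1
    refine h2 ⟨ht.1, ?_⟩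
    have := Nat.le_ceil (t - t₀)
    linarith only [this]
  refine ⟨α, ?_, ?_⟩
  · have := hα 0 (x := t₀) (by simp)
    rw [this, hβ0]
  · intro t ht
    obtain ⟨n, hn⟩ := exists_nat_gt (t - t₀)
    have htI : t ∈ Ico t₀ (t₀ + n) := ⟨ht, by linarith only [hn]⟩
    have h1 : HasDerivWithinAt α (cvf p (α t)) (Icc t₀ (t₀ + n)) t := by
      rw [hα n (Ico_subset_Icc_self htI)]
      exact (hβ n t (Ico_subset_Icc_self htI)).congr (hα n) (hα n (Ico_subset_Icc_self htI))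
    refine h1.mono_of_mem_nhdsWithin ?_
    have : Icc t₀ (t₀ + n) = Ici t₀ ∩ Iic (t₀ + n) := rfl
    rw [this]
    exact Filter.inter_mem self_mem_nhdsWithin (mem_nhdsWithin_of_mem_nhds (Iic_mem_nhds htI.2))

/-- Barrier lemma. -/
theorem barrier {f f' : ℝ → ℝ} {a b C : ℝ} (hab : a ≤ b) (hc : ContinuousOn f (Icc a b))
    (hd : ∀ t ∈ Ioo a b, HasDerivAt f (f' t) t) (h : ∀ t ∈ Ioo a b, -C * f t ≤ f' t)
    (ha : 0 < f a) : 0 < f b := by
  have hm : MonotoneOn (fun t => f t * Real.exp (C * t)) (Icc a b) := by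
    have hder : ∀ t ∈ Ioo a b, HasDerivAt (fun t => f t * Real.exp (C * t))
        (f' t * Real.exp (C * t) + f t * (Real.exp (C * t) * C)) t := by
      intro t ht
      have h1 : HasDerivAt (fun t : ℝ => C * t) C t := by
        simpa using (hasDerivAt_id t).const_mul C
      exact (hd t ht).mul h1.exp
    refine monotoneOn_of_deriv_nonneg (convex_Icc a b) ?_ ?_ ?_
    · exact hc.mul (by fun_prop)
    · intro t ht
      rw [interior_Icc] at ht
      exact (hder t ht).differentiableAt.differentiableWithinAt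
    · intro t ht
      rw [interior_Icc] at ht
      rw [(hder t ht).deriv]
      have h2 := h t ht
      have h3 := Real.exp_pos (C * t)
      have h4 : f' t * Real.exp (C * t) + f t * (Real.exp (C * t) * C)
        = (f' t + C * f t) * Real.exp (C * t) := by ring
      rw [h4]
      exact mul_nonneg (by linarith) h3.le
  have h1 := hm (left_mem_Icc.2 hab) (right_mem_Icc.2 hab) hab
  simp only at h1
  have h2 : 0 < f a * Real.exp (C * a) := mul_pos ha (Real.exp_pos _)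
  have h3 : 0 < f b * Real.exp (C * b) := lt_of_lt_of_le h2 h1
  exact (pos_iff_pos_of_mul_pos h3).2 (Real.exp_pos _)

/-- The open trapping region. -/
def region : Set (ℝ × ℝ) :=
  {z | 0 < z.1 ∧ 1 < z.2 ∧ z.2 < 1 + 5/9 * z.1 ∧ z.1 < 9/2}

theorem isOpen_region : IsOpen region := by
  have h1 : IsOpen {z : ℝ × ℝ | 0 < z.1} := isOpen_lt continuous_const continuous_fst
  have h2 : IsOpen {z : ℝ × ℝ | 1 < z.2} := isOpen_lt continuous_const continuous_snd
  have h3 : IsOpen {z : ℝ × ℝ | z.2 < 1 + 5/9 * z.1} := isOpen_lt continuous_snd (by fun_prop)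
  have h4 : IsOpen {z : ℝ × ℝ | z.1 < 9/2} := isOpen_lt continuous_fst continuous_const
  exact h1.inter (h2.inter (h3.inter h4))

theorem region_sub_box : region ⊆ box := by
  rintro z ⟨h1, h2, h3, h4⟩
  exact ⟨⟨h1.le, h4.le⟩, ⟨h2.le, by linarith only [h3, h4]⟩⟩

/-- The numerator factor at a general point. -/
theorem ineq_X {p : ℝ} (hp : 9 ≤ p) {Q X : ℝ} (h1 : 0 < Q) (h2 : 1 < X) (h3 : X < 1 + 5/9 * Q)
    (h4 : Q < 9/2) :
    -(10*p) * (X - 1) ≤ X * (p^2 + (2*p-3)*Q + 2*Q^2 - (p^2 - 6*Q)*X)/(p+2*Q) := by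
  rw [le_div_iff₀ (by positivity)]
  have hX : X < 7/2 := by linarith only [h3, h4]
  have e1 : X * (p^2 + (2*p-3)*Q + 2*Q^2 - (p^2 - 6*Q)*X)
    = X * ((2*p+3)*Q + 2*Q^2) - X * (p^2 - 6*Q) * (X - 1) := by ring
  rw [e1]
  have e2 : 0 ≤ X * ((2*p+3)*Q + 2*Q^2) := by positivity
  have e3 : X * (p^2 - 6*Q) ≤ (7/2) * p^2 := by
    have : 0 ≤ p^2 - 6*Q := by nlinarith only [hp, h4]
    calc X * (p^2 - 6*Q) ≤ (7/2) * (p^2 - 6*Q) := by nlinarith only [h3, this, h4]
      _ ≤ (7/2) * p^2 := by nlinarith only [h2, h3]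
  have e4 : (7/2)*p^2 ≤ 10*p*(p+2*Q) := by nlinarith only [hp, h1]
  nlinarith only [e2, e3, e4, h2]

theorem ineq_Q {Q X : ℝ} {p : ℝ} (hp : 9 ≤ p) (h1 : 0 < Q) (h2 : 1 < X) (h4 : Q < 9/2) :
    -(10*p) * Q ≤ Q * (X + 1 - Q) := by
  nlinarith only [h1, hp, h2, h4]

theorem ineq_Q' {Q X : ℝ} {p : ℝ} (hp : 9 ≤ p) (h1 : 0 < Q) (h3 : X < 1 + 5/9 * Q) (h4 : Q < 9/2) :
    -(10*p) * (9/2 - Q) ≤ -(Q * (X + 1 - Q)) := by
  have e1 : X + 1 - Q ≤ 4/9 * (9/2 - Q) := by linarith only [h3]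
  have e2 : Q * (X + 1 - Q) ≤ Q * (4/9 * (9/2 - Q)) := mul_le_mul_of_nonneg_left e1 h1.le
  have e3 : Q * (4/9 * (9/2 - Q)) ≤ 2 * (9/2 - Q) := by nlinarith only [h4]
  nlinarith only [h4, e2, hp]

theorem ineq_B {p : ℝ} (hp : 9 ≤ p) {Q X : ℝ} (h1 : 0 < Q) (h2 : 1 < X) (h3 : X < 1 + 5/9 * Q)
    (h4 : Q < 9/2) :
    -(10*p) * (1 + 5/9*Q - X) ≤ 5/9 * (Q * (X + 1 - Q)) -
      X * (p^2 + (2*p-3)*Q + 2*Q^2 - (p^2 - 6*Q)*X)/(p+2*Q) := by
  have hD : 0 < p + 2*Q := by positivity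
  have hX : X < 7/2 := by linarith only [h3, h4]
  rw [le_sub_iff_add_le, ← le_sub_iff_add_le', div_le_iff₀ hD]
  set f := 1 + 5/9*Q - X with hf
  have hf0 : 0 < f := by rw [hf]; linarith only [h3]
  have key : 0 ≤ (45*p^2 - 72*p - 243) + Q*(25*p^2-110*p-387) - 280*Q^2 := by
    have k0 : 0 ≤ 45*p^2 - 72*p - 243 := by nlinarith only [hp]
    have k1 : 0 ≤ (p-9)*(p+27/5) := by nlinarith only [hp]
    have e : (45*p^2 - 72*p - 243) + Q*(25*p^2-110*p-387) - 280*Q^2
      = (1 - 2/9*Q) * (45*p^2 - 72*p - 243) + (2/9*Q) * (315/2 * ((p-9)*(p+27/5)))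
        + 280 * (Q * (9/2 - Q)) := by ring
    rw [e]
    have e1 : 0 ≤ 1 - 2/9*Q := by linarith only [h4]
    have e2 : 0 ≤ Q * (9/2 - Q) := mul_nonneg h1.le (by linarith only [h4])
    (clear * - e1 k0 h1 hp h4; positivity)
  have e1 : X = 1 + 5/9*Q - f := by rw [hf]; ring
  have e2 : (5/9 * (Q * (X + 1 - Q)) - -(10 * p) * f) * (p + 2*Q) -
      X * (p^2 + (2*p-3)*Q + 2*Q^2 - (p^2 - 6*Q)*X)
      = Q/81 * ((45*p^2 - 72*p - 243) + Q*(25*p^2-110*p-387) - 280*Q^2)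
        + f * (10*p*(p+2*Q) - (5/9*Q*(p+2*Q) + X*(p^2-6*Q)
          - Q*((2*p+3 - 5/9*p^2) + (2+6*(5/9))*Q))) := by
    rw [e1]; ring
  have e3 : 0 ≤ 10*p*(p+2*Q) - (5/9*Q*(p+2*Q) + X*(p^2-6*Q)
          - Q*((2*p+3 - 5/9*p^2) + (2+6*(5/9))*Q)) := by
    have : 0 ≤ p^2 - 6*Q := by nlinarith only [hp, h4]
    have g1 : X * (p^2 - 6*Q) ≤ (7/2) * p^2 := by
      calc X * (p^2 - 6*Q) ≤ (7/2) * (p^2 - 6*Q) := by nlinarith only [h3, this, h4]
        _ ≤ (7/2) * p^2 := by nlinarith only [h1]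
    have g2 : 5/9*Q*(p+2*Q) ≤ 5/2*(p+2*Q) := by nlinarith only [h4, hp, h1]
    have g3 : Q * (5/9*p^2) ≤ 5/2*p^2 := by nlinarith only [h4]
    have g4 : 0 ≤ Q*(2*p+3) := by positivity
    have g5 : 0 ≤ Q * ((2+6*(5/9))*Q) := by positivity
    nlinarith only [g1, g3, hp, h1]
  have e4 : 0 ≤ Q/81 * ((45*p^2 - 72*p - 243) + Q*(25*p^2-110*p-387) - 280*Q^2) := by (clear * - h1 key; positivity)
  have e5 := mul_nonneg hf0.le e3
  linarith only [e2, e4, e5]

theorem cvf_of_mem {p : ℕ} {z : ℝ × ℝ} (hz : z ∈ box) : cvf p z = vf p z := by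
  rw [cvf, prj_of_mem hz]

/-- Invariance of the region under the clamped flow. -/
theorem invariant {p : ℕ} (hp : 9 ≤ p) {t₀ : ℝ} {α : ℝ → ℝ × ℝ}
    (hα : ∀ t, t₀ ≤ t → HasDerivWithinAt α (cvf p (α t)) (Ici t₀) t)
    (h0 : α t₀ ∈ region) : ∀ t, t₀ ≤ t → α t ∈ region := by
  have hp' : (9:ℝ) ≤ p := by exact_mod_cast hp
  by_contra hcon
  push Not at hcon
  obtain ⟨t₂, ht₂, hn₂⟩ := hcon
  have hcont : ContinuousOn α (Ici t₀) := fun t ht => (hα t ht).continuousWithinAt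
  set S : Set ℝ := {t | t₀ ≤ t ∧ α t ∉ region} with hS
  have hSne : S.Nonempty := ⟨t₂, ht₂, hn₂⟩
  have hSb : BddBelow S := ⟨t₀, fun t ht => ht.1⟩
  have hSc : IsClosed S := by
    have : S = Ici t₀ ∩ α ⁻¹' regionᶜ := by ext t; simp only [hS, mem_ofPred_eq, preimage_compl, mem_inter_iff, mem_Ici, mem_compl_iff, mem_preimage]
    rw [this]
    exact hcont.preimage_isClosed_of_isClosed isClosed_Ici isOpen_region.isClosed_compl
  set t₁ := sInf S with ht₁
  have hm : t₁ ∈ S := hSc.csInf_mem hSne hSb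
  have hlt : t₀ < t₁ := by
    refine lt_of_le_of_ne hm.1 ?_
    intro h
    exact hm.2 (h ▸ h0)
  have hreg : ∀ t, t₀ ≤ t → t < t₁ → α t ∈ region := by
    intro t ht htt
    by_contra hc
    exact absurd (csInf_le hSb (show t ∈ S from ⟨ht, hc⟩)) (not_le.2 htt)
  have hder : ∀ t ∈ Ioo t₀ t₁, HasDerivAt α (vf p (α t)) t := by
    intro t ht
    have h1 := (hα t ht.1.le).hasDerivAt (Ici_mem_nhds ht.1)
    rwa [cvf_of_mem (region_sub_box (hreg t ht.1.le ht.2))] at h1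
  have hd1 : ∀ t ∈ Ioo t₀ t₁, HasDerivAt (fun t => (α t).1) (vf p (α t)).1 t :=
    fun t ht => (hder t ht).fst
  have hd2 : ∀ t ∈ Ioo t₀ t₁, HasDerivAt (fun t => (α t).2) (vf p (α t)).2 t :=
    fun t ht => (hder t ht).snd
  have hcI : ContinuousOn α (Icc t₀ t₁) := hcont.mono Icc_subset_Ici_self
  have hc1 : ContinuousOn (fun t => (α t).1) (Icc t₀ t₁) := continuous_fst.comp_continuousOn hcI
  have hc2 : ContinuousOn (fun t => (α t).2) (Icc t₀ t₁) := continuous_snd.comp_continuousOn hcI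
  obtain ⟨i1, i2, i3, i4⟩ := h0
  apply hm.2
  refine ⟨?_, ?_, ?_, ?_⟩
  · refine barrier (C := 10*p) hlt.le hc1 hd1 ?_ i1
    intro t ht
    obtain ⟨r1, r2, r3, r4⟩ := hreg t ht.1.le ht.2
    exact ineq_Q hp' r1 r2 r4
  · have := barrier (f := fun t => (α t).2 - 1) (C := 10*p) hlt.le (hc2.sub continuousOn_const)
      (fun t ht => (hd2 t ht).sub_const 1) ?_ (by simpa only [sub_pos] using i2)
    · simpa using this
    · intro t ht
      obtain ⟨r1, r2, r3, r4⟩ := hreg t ht.1.le ht.2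
      exact ineq_X hp' r1 r2 r3 r4
  · have := barrier (f := fun t => 1 + 5/9 * (α t).1 - (α t).2) (C := 10*p) hlt.le
      ((continuousOn_const.add (continuousOn_const.mul hc1)).sub hc2)
      (fun t ht => (((hd1 t ht).const_mul (5/9)).const_add 1).sub (hd2 t ht)) ?_ (by simpa only [sub_pos] using i3)
    · simpa only [gt_iff_lt, sub_pos] using this
    · intro t ht
      obtain ⟨r1, r2, r3, r4⟩ := hreg t ht.1.le ht.2
      exact ineq_B hp' r1 r2 r3 r4
  · have := barrier (f := fun t => 9/2 - (α t).1) (C := 10*p) hlt.le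
      (continuousOn_const.sub hc1) (fun t ht => (hd1 t ht).const_sub (9/2)) ?_ (by simpa using i4)
    · simpa using this
    · intro t ht
      obtain ⟨r1, r2, r3, r4⟩ := hreg t ht.1.le ht.2
      exact ineq_Q' hp' r1 r3 r4

/-- Global existence in the trapping region. -/
theorem exists_global (p : ℕ) (hp : 9 ≤ p) (t₀ Q₀ X₀ : ℝ) (h1 : 0 < Q₀) (h2 : 1 < X₀)
    (h3 : X₀ < 1 + 5/9*Q₀) (h4 : Q₀ < 9/2) :
    ∃ Q X : ℝ → ℝ, Q t₀ = Q₀ ∧ X t₀ = X₀ ∧ ∀ t, t₀ ≤ t →
      (0 < Q t ∧ 1 < X t ∧ X t < 1 + 5/9 * Q t ∧ Q t < 9/2) ∧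
      HasDerivWithinAt Q (Q t * (X t + 1 - Q t)) (Set.Ici t₀) t ∧
      HasDerivWithinAt X (X t * ((p:ℝ)^2 + (2*p-3)*Q t + 2*(Q t)^2 -
        ((p:ℝ)^2 - 6*Q t)*X t)/(p+2*Q t)) (Set.Ici t₀) t := by
  obtain ⟨α, hα0, hα⟩ := exists_clamped hp t₀ (Q₀, X₀)
  have hinv := invariant hp hα (by rw [hα0]; exact ⟨h1, h2, h3, h4⟩)
  refine ⟨fun t => (α t).1, fun t => (α t).2, by simp [hα0], by simp [hα0], fun t ht => ?_⟩
  have h := hα t ht
  rw [cvf_of_mem (region_sub_box (hinv t ht))] at h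
  exact ⟨hinv t ht, h.fst, h.snd⟩

/-- Smoothness of solutions. -/
theorem smooth_global (p : ℕ) (hp : 9 ≤ p) (t₀ : ℝ) (Q X : ℝ → ℝ)
    (h : ∀ t, t₀ ≤ t →
      (0 < Q t ∧ 1 < X t ∧ X t < 1 + 5/9 * Q t ∧ Q t < 9/2) ∧
      HasDerivWithinAt Q (Q t * (X t + 1 - Q t)) (Set.Ici t₀) t ∧
      HasDerivWithinAt X (X t * ((p:ℝ)^2 + (2*p-3)*Q t + 2*(Q t)^2 -
        ((p:ℝ)^2 - 6*Q t)*X t)/(p+2*Q t)) (Set.Ici t₀) t) :
    ∀ t, t₀ < t → ContDiffAt ℝ ∞ Q t ∧ ContDiffAt ℝ ∞ X t := by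
  intro t ht
  have hα : ∀ s ∈ Icc t₀ (t + 1), HasDerivWithinAt (fun s => (Q s, X s)) (vf p (Q s, X s))
      (Icc t₀ (t + 1)) s := by
    intro s hs
    have := h s hs.1
    exact (this.2.1.mono Icc_subset_Ici_self).prodMk (this.2.2.mono Icc_subset_Ici_self)
  have hv : ContDiffOn ℝ ((⊤ : ℕ∞) : WithTop ℕ∞) (Function.uncurry (fun (_ : ℝ) => vf p))
      ((Icc t₀ (t + 1)) ×ˢ box) :=
    (contDiffOn_vf hp).comp contDiff_snd.contDiffOn (fun z hz => hz.2)
  have hsm := ODE.contDiffOn_enat_Icc_of_hasDerivWithinAt (n := ⊤) hv hα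
    (fun s hs => region_sub_box (h s hs.1).1)
  have hat : ContDiffAt ℝ ∞ (fun s => (Q s, X s)) t :=
    hsm.contDiffAt (Icc_mem_nhds ht (by linarith only []))
  exact ⟨contDiff_fst.contDiffAt.comp t hat, contDiff_snd.contDiffAt.comp t hat⟩

/-- Uniqueness of solutions in the trapping region. -/
theorem unique_global (p : ℕ) (hp : 9 ≤ p) (t₀ t₁ : ℝ) (Q X Q₂ X₂ : ℝ → ℝ)
    (h : ∀ t ∈ Icc t₀ t₁,
      (0 < Q t ∧ 1 < X t ∧ X t < 1 + 5/9 * Q t ∧ Q t < 9/2) ∧
      HasDerivWithinAt Q (Q t * (X t + 1 - Q t)) (Icc t₀ t₁) t ∧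
      HasDerivWithinAt X (X t * ((p:ℝ)^2 + (2*p-3)*Q t + 2*(Q t)^2 -
        ((p:ℝ)^2 - 6*Q t)*X t)/(p+2*Q t)) (Icc t₀ t₁) t)
    (h' : ∀ t ∈ Icc t₀ t₁,
      (0 < Q₂ t ∧ 1 < X₂ t ∧ X₂ t < 1 + 5/9 * Q₂ t ∧ Q₂ t < 9/2) ∧
      HasDerivWithinAt Q₂ (Q₂ t * (X₂ t + 1 - Q₂ t)) (Icc t₀ t₁) t ∧
      HasDerivWithinAt X₂ (X₂ t * ((p:ℝ)^2 + (2*p-3)*Q₂ t + 2*(Q₂ t)^2 -
        ((p:ℝ)^2 - 6*Q₂ t)*X₂ t)/(p+2*Q₂ t)) (Icc t₀ t₁) t)
    (hQ : Q t₀ = Q₂ t₀) (hX : X t₀ = X₂ t₀) :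
    ∀ t ∈ Icc t₀ t₁, Q t = Q₂ t ∧ X t = X₂ t := by
  obtain ⟨K, hK⟩ := exists_lip hp
  have h1 : ∀ t ∈ Icc t₀ t₁, HasDerivWithinAt (fun s => (Q s, X s)) (vf p (Q t, X t))
      (Icc t₀ t₁) t := fun t ht => ((h t ht).2.1).prodMk ((h t ht).2.2)
  have h2 : ∀ t ∈ Icc t₀ t₁, HasDerivWithinAt (fun s => (Q₂ s, X₂ s)) (vf p (Q₂ t, X₂ t))
      (Icc t₀ t₁) t := fun t ht => ((h' t ht).2.1).prodMk ((h' t ht).2.2)
  have key := ODE_solution_unique_of_mem_Icc_right (v := fun _ => vf p) (s := fun _ => box)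
    (K := K) (a := t₀) (b := t₁) (f := fun s => (Q s, X s)) (g := fun s => (Q₂ s, X₂ s))
    (fun _ _ => hK) (fun t ht => (h1 t ht).continuousWithinAt)
    (fun t ht => (h1 t ⟨ht.1, ht.2.le⟩).mono_of_mem_nhdsWithin (Icc_mem_nhdsGE_of_mem ht))
    (fun t ht => region_sub_box (h t ⟨ht.1, ht.2.le⟩).1)
    (fun t ht => (h2 t ht).continuousWithinAt)
    (fun t ht => (h2 t ⟨ht.1, ht.2.le⟩).mono_of_mem_nhdsWithin (Icc_mem_nhdsGE_of_mem ht))
    (fun t ht => region_sub_box (h' t ⟨ht.1, ht.2.le⟩).1) (by simp [hQ, hX])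
  intro t ht
  have := key ht
  simp only [Prod.mk.injEq] at this
  exact this

end Vale.Agent.P252
end
end

section

section

open scoped ContDiff Topology
open Filter

namespace Vale.Agent.P252

variable {n : ℕ}

lemma continuous_speed (u : EuclideanSpace ℝ (Fin n) → ℝ) (hu : ContDiff ℝ ∞ u)
    (γ : ℝ → EuclideanSpace ℝ (Fin n)) (hγ : ContDiff ℝ 1 γ) :
    Continuous fun t => Real.sqrt (‖deriv γ t‖ ^ 2 + (fderiv ℝ u (γ t) (deriv γ t)) ^ 2) := by
  have h1 : Continuous (deriv γ) := hγ.continuous_deriv (le_refl _)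
  have h2 : Continuous (fun t => fderiv ℝ u (γ t)) :=
    (hu.continuous_fderiv (by simp)).comp hγ.continuous
  have h3 : Continuous (fun t => fderiv ℝ u (γ t) (deriv γ t)) := h2.clm_apply h1
  exact (((h1.norm).pow 2).add (h3.pow 2)).sqrt

lemma dist_le_graphLength (u : EuclideanSpace ℝ (Fin n) → ℝ) (hu : ContDiff ℝ ∞ u)
    (γ : ℝ → EuclideanSpace ℝ (Fin n)) (hγ : ContDiff ℝ 1 γ) :
    dist (γ 0) (γ 1) ≤ graphLength u γ := by
  have h1 : Continuous (deriv γ) := hγ.continuous_deriv (le_refl _)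
  have h2 : ∫ t in (0 : ℝ)..1, deriv γ t = γ 1 - γ 0 :=
    intervalIntegral.integral_deriv_eq_sub
      (fun t _ => (hγ.differentiable (by simp)).differentiableAt)
      (h1.intervalIntegrable _ _)
  rw [dist_comm, dist_eq_norm, ← h2]
  refine (intervalIntegral.norm_integral_le_integral_norm (by norm_num)).trans ?_
  unfold graphLength
  apply intervalIntegral.integral_mono_on (by norm_num) (h1.norm.intervalIntegrable _ _)
    ((continuous_speed u hu γ hγ).intervalIntegrable _ _)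
  intro t _
  apply Real.le_sqrt_of_sq_le
  nlinarith only []

lemma graphLength_segment_le (u : EuclideanSpace ℝ (Fin n) → ℝ) (hu : ContDiff ℝ ∞ u)
    (x y : EuclideanSpace ℝ (Fin n)) (M : ℝ) (hM0 : 0 ≤ M)
    (hM : ∀ t ∈ Set.Icc (0 : ℝ) 1, ‖fderiv ℝ u (x + t • (y - x))‖ ≤ M) :
    graphLength u (fun t => x + t • (y - x)) ≤ (1 + M) * dist x y := by
  have hγ : ContDiff ℝ 1 (fun t : ℝ => x + t • (y - x)) := by fun_prop
  have hd : ∀ t : ℝ, deriv (fun t : ℝ => x + t • (y - x)) t = y - x := by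
    intro t
    have : HasDerivAt (fun t : ℝ => x + t • (y - x)) ((1 : ℝ) • (y - x)) t :=
      ((hasDerivAt_id t).smul_const (y - x)).const_add x
    rw [this.deriv, one_smul]
  unfold graphLength
  have h1 : ∫ t in (0 : ℝ)..1, Real.sqrt (‖deriv (fun t : ℝ => x + t • (y - x)) t‖ ^ 2 +
      (fderiv ℝ u (x + t • (y - x)) (deriv (fun t : ℝ => x + t • (y - x)) t)) ^ 2)
      ≤ ∫ t in (0 : ℝ)..1, (1 + M) * dist x y := by
    apply intervalIntegral.integral_mono_on (by norm_num)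
      ((continuous_speed u hu _ hγ).intervalIntegrable _ _)
      (continuous_const.intervalIntegrable _ _)
    intro t ht
    rw [hd t]
    apply Real.sqrt_le_iff.mpr
    refine ⟨by (clear * - hM0; positivity), ?_⟩
    have h2 : |fderiv ℝ u (x + t • (y - x)) (y - x)| ≤ M * ‖y - x‖ :=
      ((fderiv ℝ u (x + t • (y - x))).le_opNorm _).trans
        (mul_le_mul_of_nonneg_right (hM t ht) (norm_nonneg _))
    have h3 : (fderiv ℝ u (x + t • (y - x)) (y - x)) ^ 2 ≤ (M * ‖y - x‖) ^ 2 := by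
      rw [← sq_abs]
      exact pow_le_pow_left₀ (abs_nonneg _) h2 2
    rw [dist_comm, dist_eq_norm]
    nlinarith only [h3, hM0]
  refine h1.trans ?_
  simp

theorem euclideanComplete_univ (u : EuclideanSpace ℝ (Fin n) → ℝ) (hu : ContDiff ℝ ∞ u) :
    EuclideanComplete Set.univ u := by
  intro x _ hx
  have hle : ∀ a b, dist a b ≤ graphDist Set.univ u a b := by
    intro a b
    apply le_csInf
    · refine ⟨_, fun t => a + t • (b - a), by fun_prop, by simp, by simp, by simp only [Set.mem_Icc, Set.mem_univ, implies_true], rfl⟩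
    · rintro L ⟨γ, hγ, h0, h1, -, rfl⟩
      rw [← h0, ← h1]
      exact dist_le_graphLength u hu γ hγ
  have hc : CauchySeq x := by
    rw [Metric.cauchySeq_iff]
    intro ε hε
    obtain ⟨N, hN⟩ := hx ε hε
    exact ⟨N, fun i hi j hj => (hle _ _).trans_lt (hN i hi j hj)⟩
  obtain ⟨y, hy⟩ := cauchySeq_tendsto_of_complete hc
  refine ⟨y, Set.mem_univ _, ?_⟩
  -- bound on the gradient near `y`
  obtain ⟨M, hM⟩ := (isCompact_closedBall y 1).exists_bound_of_continuousOn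
    (hu.continuous_fderiv (by simp)).continuousOn
  have hev : ∀ᶠ k in atTop, x k ∈ Metric.closedBall y 1 :=
    hy.eventually (Metric.closedBall_mem_nhds y one_pos)
  have hub : ∀ᶠ k in atTop, graphDist Set.univ u (x k) y ≤ (1 + |M|) * dist (x k) y := by
    filter_upwards [hev] with k hk
    have h1 : graphLength u (fun t => x k + t • (y - x k)) ≤ (1 + |M|) * dist (x k) y := by
      apply graphLength_segment_le u hu _ _ _ (abs_nonneg _)
      intro t ht
      refine (hM _ ?_).trans (le_abs_self _)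
      have hcv := (convex_closedBall y 1) hk (Metric.mem_closedBall_self zero_le_one)
        (sub_nonneg.mpr ht.2) ht.1 (by ring)
      have e : (1 - t) • x k + t • y = x k + t • (y - x k) := by
        rw [sub_smul, one_smul, smul_sub]; abel
      rwa [e] at hcv
    refine (csInf_le ?_ ?_).trans h1
    · refine ⟨dist (x k) y, ?_⟩
      rintro L ⟨γ, hγ, h0, h1, -, rfl⟩
      rw [← h0, ← h1]
      exact dist_le_graphLength u hu γ hγ
    · exact ⟨fun t => x k + t • (y - x k), by fun_prop, by simp only [zero_smul, add_zero], by simp, by simp only [Set.mem_Icc, Set.mem_univ, implies_true], rfl⟩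
  have hlb : ∀ᶠ k in atTop, 0 ≤ graphDist Set.univ u (x k) y :=
    Eventually.of_forall fun k => dist_nonneg.trans (hle _ _)
  have hlim : Tendsto (fun k => (1 + |M|) * dist (x k) y) atTop (𝓝 0) := by
    have := (tendsto_iff_dist_tendsto_zero.mp hy).const_mul (1 + |M|)
    simpa only [mul_zero] using this
  exact tendsto_of_tendsto_of_tendsto_of_le_of_le' tendsto_const_nhds hlim hlb hub

theorem not_affineBernstein (u : EuclideanSpace ℝ (Fin n) → ℝ) (hu : ContDiff ℝ ∞ u)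
    (hpos : ∀ x, (hess u x).PosDef) (ham : AffineMaximalOn Set.univ u)
    (hq : ¬ IsQuadratic u) : ¬ AffineBernstein n := by
  intro h
  obtain ⟨-, A, b, c, -, hA⟩ := h Set.univ u Set.univ_nonempty isOpen_univ convex_univ
    hu.contDiffOn (fun x _ => hpos x) ham (euclideanComplete_univ u hu)
  exact hq ⟨A, b, c, hA⟩

end Vale.Agent.P252
end
end

section

section

open scoped ContDiff Topology
open Filter

namespace Vale.Agent.P252

variable {n : ℕ}

lemma contDiff_pd (i : Fin n) (f : EuclideanSpace ℝ (Fin n) → ℝ) (hf : ContDiff ℝ ∞ f) :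
    ContDiff ℝ ∞ (pd i f) := by
  unfold pd
  have h : ContDiff ℝ ∞ (fderiv ℝ f) := hf.fderiv_right (by simp)
  exact h.clm_apply contDiff_const

lemma continuous_hess (u : EuclideanSpace ℝ (Fin n) → ℝ) (hu : ContDiff ℝ ∞ u) :
    Continuous (hess u) := by
  unfold hess
  apply continuous_matrix
  intro i j
  simp only [Matrix.of_apply]
  exact (contDiff_pd i _ (contDiff_pd j u hu)).continuous

lemma continuous_affMetric (u : EuclideanSpace ℝ (Fin n) → ℝ) (hu : ContDiff ℝ ∞ u)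
    (hpos : ∀ x, (hess u x).PosDef) :
    Continuous (fun z : EuclideanSpace ℝ (Fin n) × EuclideanSpace ℝ (Fin n) =>
      affMetric u z.1 z.2) := by
  unfold affMetric
  have h := continuous_hess u hu
  have hdet : Continuous fun z : EuclideanSpace ℝ (Fin n) × EuclideanSpace ℝ (Fin n) =>
      (hess u z.1).det := (h.comp continuous_fst).matrix_det
  apply Continuous.mul
  · exact hdet.rpow_const (fun z => Or.inl (hpos z.1).det_pos.ne')
  · apply continuous_finsetSum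
    intro i _
    apply continuous_finsetSum
    intro j _
    have h1 : Continuous fun z : EuclideanSpace ℝ (Fin n) × EuclideanSpace ℝ (Fin n) =>
      hess u z.1 i j := (h.comp continuous_fst).matrix_elem i j
    have h2 : Continuous fun z : EuclideanSpace ℝ (Fin n) × EuclideanSpace ℝ (Fin n) =>
      z.2 i := (EuclideanSpace.proj i : EuclideanSpace ℝ (Fin n) →L[ℝ] ℝ).continuous.comp continuous_snd
    have h3 : Continuous fun z : EuclideanSpace ℝ (Fin n) × EuclideanSpace ℝ (Fin n) =>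
      z.2 j := (EuclideanSpace.proj j : EuclideanSpace ℝ (Fin n) →L[ℝ] ℝ).continuous.comp continuous_snd
    exact (h1.mul h2).mul h3

lemma affMetric_nonneg (u : EuclideanSpace ℝ (Fin n) → ℝ)
    (hpos : ∀ x, (hess u x).PosDef) (x v : EuclideanSpace ℝ (Fin n)) : 0 ≤ affMetric u x v := by
  unfold affMetric
  apply mul_nonneg (Real.rpow_nonneg (hpos x).det_pos.le _)
  have := (hpos x).posSemidef.dotProduct_mulVec_nonneg (fun i => v i)
  simp only [dotProduct, Matrix.mulVec, Pi.star_apply, star_trivial, Finset.mul_sum] at this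
  convert this using 3 with i _ j _
  ring

lemma affMetric_pos (u : EuclideanSpace ℝ (Fin n) → ℝ)
    (hpos : ∀ x, (hess u x).PosDef) (x v : EuclideanSpace ℝ (Fin n)) (hv : v ≠ 0) :
    0 < affMetric u x v := by
  unfold affMetric
  apply mul_pos (Real.rpow_pos_of_pos (hpos x).det_pos _)
  have hv' : (fun i => v i) ≠ 0 := by
    intro h
    apply hv
    ext i
    exact congrFun h i
  have := (hpos x).dotProduct_mulVec_pos hv'
  simp only [dotProduct, Matrix.mulVec, Pi.star_apply, star_trivial, Finset.mul_sum] at this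
  convert this using 3 with i _ j _
  ring

lemma affMetric_smul (u : EuclideanSpace ℝ (Fin n) → ℝ) (x v : EuclideanSpace ℝ (Fin n)) (c : ℝ) :
    affMetric u x (c • v) = c ^ 2 * affMetric u x v := by
  unfold affMetric
  simp only [PiLp.smul_apply, smul_eq_mul, Finset.mul_sum]
  apply Finset.sum_congr rfl
  intro i _
  apply Finset.sum_congr rfl
  intro j _
  ring

/-- on a compact set the metric is comparable with the Euclidean one -/
lemma affMetric_bounds (u : EuclideanSpace ℝ (Fin n) → ℝ) (hu : ContDiff ℝ ∞ u)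
    (hpos : ∀ x, (hess u x).PosDef) (K : Set (EuclideanSpace ℝ (Fin n))) (hK : IsCompact K) :
    ∃ c > 0, ∃ C > 0, ∀ x ∈ K, ∀ v, (c * ‖v‖) ^ 2 ≤ affMetric u x v ∧
      affMetric u x v ≤ (C * ‖v‖) ^ 2 := by
  set S := Metric.sphere (0 : EuclideanSpace ℝ (Fin n)) 1 with hS
  have hSc : IsCompact S := isCompact_sphere _ _
  have hKS : IsCompact (K ×ˢ S) := hK.prod hSc
  have hcont := continuous_affMetric u hu hpos
  by_cases hne : (K ×ˢ S).Nonempty
  · obtain ⟨z₁, hz₁, hmin⟩ := hKS.exists_isMinOn hne hcont.continuousOn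
    obtain ⟨z₂, hz₂, hmax⟩ := hKS.exists_isMaxOn hne hcont.continuousOn
    have hv0 : ∀ v ∈ S, v ≠ 0 := by
      intro v hv h0
      rw [hS, mem_sphere_zero_iff_norm, h0, norm_zero] at hv
      exact zero_ne_one hv
    have h1 : 0 < affMetric u z₁.1 z₁.2 := affMetric_pos u hpos _ _ (hv0 _ hz₁.2)
    have h2 : 0 < affMetric u z₂.1 z₂.2 := affMetric_pos u hpos _ _ (hv0 _ hz₂.2)
    refine ⟨Real.sqrt (affMetric u z₁.1 z₁.2), Real.sqrt_pos.2 h1,
      Real.sqrt (affMetric u z₂.1 z₂.2), Real.sqrt_pos.2 h2, ?_⟩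
    intro x hx v
    by_cases hv : v = 0
    · subst hv
      have : affMetric u x 0 = 0 := by simp only [affMetric, PiLp.zero_apply, mul_zero, Finset.sum_const_zero]
      rw [this]
      simp
    · have hvn : 0 < ‖v‖ := norm_pos_iff.2 hv
      set w := ‖v‖⁻¹ • v with hw
      have hwS : w ∈ S := by
        rw [hS, mem_sphere_zero_iff_norm, hw, norm_smul, norm_inv, norm_norm,
          inv_mul_cancel₀ hvn.ne']
      have hvw : v = ‖v‖ • w := by
        rw [hw, smul_smul, mul_inv_cancel₀ hvn.ne', one_smul]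
      have e : affMetric u x v = ‖v‖ ^ 2 * affMetric u x w := by
        conv_lhs => rw [hvw]
        rw [affMetric_smul]
      have m1 := hmin (Set.mk_mem_prod hx hwS)
      have m2 := hmax (Set.mk_mem_prod hx hwS)
      simp only [Set.mem_ofPred_eq] at m1 m2
      rw [e, mul_pow, mul_pow, Real.sq_sqrt h1.le, Real.sq_sqrt h2.le]
      constructor
      · rw [mul_comm]
        exact mul_le_mul_of_nonneg_left m1 (sq_nonneg _)
      · rw [mul_comm]
        exact mul_le_mul_of_nonneg_right m2 (sq_nonneg _)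
  · refine ⟨1, one_pos, 1, one_pos, ?_⟩
    intro x hx v
    by_cases hv : v = 0
    · subst hv
      have : affMetric u x 0 = 0 := by simp only [affMetric, PiLp.zero_apply, mul_zero, Finset.sum_const_zero]
      rw [this]
      simp
    · exfalso
      apply hne
      have hvn : 0 < ‖v‖ := norm_pos_iff.2 hv
      refine ⟨(x, ‖v‖⁻¹ • v), hx, ?_⟩
      simp only [hS, mem_sphere_zero_iff_norm]
      rw [norm_smul, norm_inv, norm_norm, inv_mul_cancel₀ hvn.ne']


lemma continuous_affSpeed (u : EuclideanSpace ℝ (Fin n) → ℝ) (hu : ContDiff ℝ ∞ u)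
    (hpos : ∀ x, (hess u x).PosDef)
    (γ : ℝ → EuclideanSpace ℝ (Fin n)) (hγ : ContDiff ℝ 1 γ) :
    Continuous fun t => Real.sqrt (affMetric u (γ t) (deriv γ t)) := by
  have h1 : Continuous (deriv γ) := hγ.continuous_deriv (le_refl _)
  exact ((continuous_affMetric u hu hpos).comp (hγ.continuous.prodMk h1)).sqrt

lemma affLength_nonneg (u : EuclideanSpace ℝ (Fin n) → ℝ) (γ : ℝ → EuclideanSpace ℝ (Fin n)) :
    0 ≤ affLength u γ :=
  intervalIntegral.integral_nonneg zero_le_one fun _ _ => Real.sqrt_nonneg _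

lemma affLength_mono (u : EuclideanSpace ℝ (Fin n) → ℝ) (hu : ContDiff ℝ ∞ u)
    (hpos : ∀ x, (hess u x).PosDef)
    (γ : ℝ → EuclideanSpace ℝ (Fin n)) (hγ : ContDiff ℝ 1 γ) (t : ℝ) (ht : t ∈ Set.Icc (0:ℝ) 1) :
    ∫ s in (0 : ℝ)..t, Real.sqrt (affMetric u (γ s) (deriv γ s)) ≤ affLength u γ := by
  unfold affLength
  have hc := continuous_affSpeed u hu hpos γ hγ
  apply intervalIntegral.integral_mono_interval le_rfl ht.1 ht.2
  · exact Eventually.of_forall fun _ => Real.sqrt_nonneg _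
  · exact hc.intervalIntegrable _ _

lemma log_le_affLength (u : EuclideanSpace ℝ (Fin n) → ℝ) (hu : ContDiff ℝ ∞ u)
    (hpos : ∀ x, (hess u x).PosDef) (hu0 : ∀ x, 0 < u x) (C : ℝ) (hC0 : 0 ≤ C)
    (hC : ∀ x v, (fderiv ℝ u x v) ^ 2 ≤ (C * u x) ^ 2 * affMetric u x v)
    (γ : ℝ → EuclideanSpace ℝ (Fin n)) (hγ : ContDiff ℝ 1 γ) (t : ℝ) (ht : t ∈ Set.Icc (0:ℝ) 1) :
    |Real.log (u (γ t)) - Real.log (u (γ 0))| ≤ C * affLength u γ := by
  have hd : ∀ s, HasDerivAt (fun s => Real.log (u (γ s)))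
      (fderiv ℝ u (γ s) (deriv γ s) / u (γ s)) s := by
    intro s
    have h1 : HasDerivAt γ (deriv γ s) s :=
      (hγ.differentiable (by simp)).differentiableAt.hasDerivAt
    have h2 : HasFDerivAt u (fderiv ℝ u (γ s)) (γ s) :=
      (hu.differentiable (by simp)).differentiableAt.hasFDerivAt
    exact (h2.comp_hasDerivAt s h1).log (hu0 _).ne'
  have h1 : Continuous (deriv γ) := hγ.continuous_deriv (le_refl _)
  have h2 : Continuous (fun t => fderiv ℝ u (γ t)) :=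
    (hu.continuous_fderiv (by simp)).comp hγ.continuous
  have h3 : Continuous (fun t => fderiv ℝ u (γ t) (deriv γ t)) := h2.clm_apply h1
  have h4 : Continuous (fun t => fderiv ℝ u (γ t) (deriv γ t) / u (γ t)) :=
    h3.div (hu.continuous.comp hγ.continuous) fun t => (hu0 _).ne'
  have hc := continuous_affSpeed u hu hpos γ hγ
  have h5 := intervalIntegral.integral_eq_sub_of_hasDerivAt (a := 0) (b := t)
    (fun s _ => hd s) (h4.intervalIntegrable _ _)
  rw [← h5, ← Real.norm_eq_abs]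
  calc ‖∫ s in (0:ℝ)..t, fderiv ℝ u (γ s) (deriv γ s) / u (γ s)‖
      ≤ ∫ s in (0:ℝ)..t, ‖fderiv ℝ u (γ s) (deriv γ s) / u (γ s)‖ :=
        intervalIntegral.norm_integral_le_integral_norm ht.1
    _ ≤ ∫ s in (0:ℝ)..t, C * Real.sqrt (affMetric u (γ s) (deriv γ s)) := by
        apply intervalIntegral.integral_mono_on ht.1 (h4.norm.intervalIntegrable _ _)
          ((hc.const_mul C).intervalIntegrable _ _)
        intro s _
        rw [Real.norm_eq_abs, abs_div, abs_of_pos (hu0 (γ s)), div_le_iff₀ (hu0 (γ s))]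
        apply abs_le_of_sq_le_sq
        · have e : (C * Real.sqrt (affMetric u (γ s) (deriv γ s)) * u (γ s)) ^ 2
              = (C * u (γ s)) ^ 2 * affMetric u (γ s) (deriv γ s) := by
            rw [mul_pow, mul_pow, Real.sq_sqrt (affMetric_nonneg u hpos _ _)]
            ring
          rw [e]
          exact hC _ _
        · have := hu0 (γ s)
          (clear * - hC0 this; positivity)
    _ = C * ∫ s in (0:ℝ)..t, Real.sqrt (affMetric u (γ s) (deriv γ s)) := by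
        rw [intervalIntegral.integral_const_mul]
    _ ≤ C * affLength u γ :=
        mul_le_mul_of_nonneg_left (affLength_mono u hu hpos γ hγ t ht) hC0

lemma dist_le_affLength (u : EuclideanSpace ℝ (Fin n) → ℝ) (hu : ContDiff ℝ ∞ u)
    (hpos : ∀ x, (hess u x).PosDef) (c : ℝ) (hc0 : 0 < c)
    (γ : ℝ → EuclideanSpace ℝ (Fin n)) (hγ : ContDiff ℝ 1 γ)
    (hc : ∀ t ∈ Set.Icc (0:ℝ) 1, ∀ v, (c * ‖v‖) ^ 2 ≤ affMetric u (γ t) v) :
    c * dist (γ 0) (γ 1) ≤ affLength u γ := by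
  have h1 : Continuous (deriv γ) := hγ.continuous_deriv (le_refl _)
  have h2 : ∫ t in (0 : ℝ)..1, deriv γ t = γ 1 - γ 0 :=
    intervalIntegral.integral_deriv_eq_sub
      (fun t _ => (hγ.differentiable (by simp)).differentiableAt)
      (h1.intervalIntegrable _ _)
  rw [dist_comm, dist_eq_norm, ← h2]
  calc c * ‖∫ t in (0 : ℝ)..1, deriv γ t‖ ≤ c * ∫ t in (0 : ℝ)..1, ‖deriv γ t‖ :=
        mul_le_mul_of_nonneg_left
          (intervalIntegral.norm_integral_le_integral_norm (by norm_num)) hc0.le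
    _ = ∫ t in (0 : ℝ)..1, c * ‖deriv γ t‖ := by rw [intervalIntegral.integral_const_mul]
    _ ≤ affLength u γ := by
        unfold affLength
        apply intervalIntegral.integral_mono_on (by norm_num)
          ((h1.norm.const_mul c).intervalIntegrable _ _)
          ((continuous_affSpeed u hu hpos γ hγ).intervalIntegrable _ _)
        intro t ht
        exact Real.le_sqrt_of_sq_le (hc t ht _)

lemma affLength_segment_le (u : EuclideanSpace ℝ (Fin n) → ℝ) (hu : ContDiff ℝ ∞ u)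
    (hpos : ∀ x, (hess u x).PosDef)
    (x y : EuclideanSpace ℝ (Fin n)) (M : ℝ) (hM0 : 0 ≤ M)
    (hM : ∀ t ∈ Set.Icc (0 : ℝ) 1, ∀ v, affMetric u (x + t • (y - x)) v ≤ (M * ‖v‖) ^ 2) :
    affLength u (fun t => x + t • (y - x)) ≤ M * dist x y := by
  have hγ : ContDiff ℝ 1 (fun t : ℝ => x + t • (y - x)) := by fun_prop
  have hd : ∀ t : ℝ, deriv (fun t : ℝ => x + t • (y - x)) t = y - x := by
    intro t
    have : HasDerivAt (fun t : ℝ => x + t • (y - x)) ((1 : ℝ) • (y - x)) t :=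
      ((hasDerivAt_id t).smul_const (y - x)).const_add x
    rw [this.deriv, one_smul]
  have h1 : affLength u (fun t => x + t • (y - x)) ≤ ∫ t in (0 : ℝ)..1, M * dist x y := by
    unfold affLength
    apply intervalIntegral.integral_mono_on (by norm_num)
      ((continuous_affSpeed u hu hpos _ hγ).intervalIntegrable _ _)
      (continuous_const.intervalIntegrable _ _)
    intro t ht
    rw [hd t]
    rw [dist_comm, dist_eq_norm]
    exact Real.sqrt_le_iff.mpr ⟨by (clear * - hM0; positivity), hM t ht _⟩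
  refine h1.trans ?_
  simp

theorem affineComplete_univ_of (u : EuclideanSpace ℝ (Fin n) → ℝ) (hu : ContDiff ℝ ∞ u)
    (hpos : ∀ x, (hess u x).PosDef) (hu0 : ∀ x, 0 < u x)
    (hprop : ∀ M : ℝ, Bornology.IsBounded {x | u x ≤ M}) (C : ℝ) (hC0 : 0 ≤ C)
    (hC : ∀ x v, (fderiv ℝ u x v) ^ 2 ≤ (C * u x) ^ 2 * affMetric u x v) :
    AffineComplete Set.univ u := by
  intro x _ hx
  -- short curves
  have hcurve : ∀ a b ε, affDist Set.univ u a b < ε → ∃ γ : ℝ → EuclideanSpace ℝ (Fin n),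
      ContDiff ℝ 1 γ ∧ γ 0 = a ∧ γ 1 = b ∧ affLength u γ < ε := by
    intro a b ε h
    have hne : {L | ∃ γ : ℝ → EuclideanSpace ℝ (Fin n), ContDiff ℝ 1 γ ∧ γ 0 = a ∧ γ 1 = b ∧
        (∀ t ∈ Set.Icc (0 : ℝ) 1, γ t ∈ (Set.univ : Set (EuclideanSpace ℝ (Fin n)))) ∧
        L = affLength u γ}.Nonempty :=
      ⟨_, fun t => a + t • (b - a), by fun_prop, by simp, by simp, by simp only [Set.mem_Icc, Set.mem_univ, implies_true], rfl⟩
    obtain ⟨L, ⟨γ, h1, h2, h3, -, rfl⟩, hL⟩ := exists_lt_of_csInf_lt hne h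
    exact ⟨γ, h1, h2, h3, hL⟩
  obtain ⟨N₀, hN₀⟩ := hx 1 one_pos
  set M := u (x N₀) * Real.exp (C + C) with hM
  have hbd : ∀ i ≥ N₀, Real.log (u (x i)) ≤ Real.log (u (x N₀)) + C := by
    intro i hi
    obtain ⟨γ, h1, h2, h3, h4⟩ := hcurve _ _ _ (hN₀ N₀ le_rfl i hi)
    have := log_le_affLength u hu hpos hu0 C hC0 hC γ h1 1 (by simp only [Set.mem_Icc, zero_le_one, Std.le_refl, and_self])
    rw [h2, h3] at this
    have h5 : C * affLength u γ ≤ C * 1 := mul_le_mul_of_nonneg_left h4.le hC0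
    have := (abs_le.1 this).2
    linarith only [h5, this]
  have hKc : IsCompact {z | u z ≤ M} := by
    apply Metric.isCompact_of_isClosed_isBounded
    · exact isClosed_le hu.continuous continuous_const
    · exact hprop M
  obtain ⟨c, hc0, C₁, hC₁, hbounds⟩ := affMetric_bounds u hu hpos _ hKc
  have hlow : ∀ i ≥ N₀, ∀ j, ∀ ε ≤ 1, affDist Set.univ u (x i) (x j) < ε →
      c * dist (x i) (x j) < ε := by
    intro i hi j ε hε h
    obtain ⟨γ, h1, h2, h3, h4⟩ := hcurve _ _ _ h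
    have hin : ∀ t ∈ Set.Icc (0:ℝ) 1, γ t ∈ {z | u z ≤ M} := by
      intro t ht
      have h5 := log_le_affLength u hu hpos hu0 C hC0 hC γ h1 t ht
      have h6 := (abs_le.1 h5).2
      rw [h2] at h6
      have h7 : C * affLength u γ ≤ C * 1 := mul_le_mul_of_nonneg_left (by linarith only [hε, h4]) hC0
      have h8 := hbd i hi
      have h9 : Real.log (u (γ t)) ≤ Real.log M := by
        rw [hM, Real.log_mul (hu0 _).ne' (Real.exp_pos _).ne', Real.log_exp]
        linarith only [h6, h7, h8]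
      have hMpos : 0 < M := mul_pos (hu0 _) (Real.exp_pos _)
      exact (Real.log_le_log_iff (hu0 _) hMpos).1 h9
    have h5 := dist_le_affLength u hu hpos c hc0 γ h1 (fun t ht v => (hbounds _ (hin t ht) v).1)
    rw [h2, h3] at h5
    linarith only [h4, h5]
  have hcauchy : CauchySeq x := by
    rw [Metric.cauchySeq_iff]
    intro ε hε
    obtain ⟨N, hN⟩ := hx (min (c * ε) 1) (by (clear * - hc0 hε; positivity))
    refine ⟨max N N₀, fun i hi j hj => ?_⟩
    have h1 := hlow i (le_trans (le_max_right _ _) hi) j _ (min_le_right _ _)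
      (hN i (le_trans (le_max_left _ _) hi) j (le_trans (le_max_left _ _) hj))
    have h2 : c * dist (x i) (x j) < c * ε := lt_of_lt_of_le h1 (min_le_left _ _)
    exact lt_of_mul_lt_mul_left h2 hc0.le
  obtain ⟨y, hy⟩ := cauchySeq_tendsto_of_complete hcauchy
  refine ⟨y, Set.mem_univ _, ?_⟩
  obtain ⟨c₂, hc₂, C₂, hC₂, hb₂⟩ := affMetric_bounds u hu hpos _ (isCompact_closedBall y 1)
  have hev : ∀ᶠ k in atTop, x k ∈ Metric.closedBall y 1 :=
    hy.eventually (Metric.closedBall_mem_nhds y one_pos)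
  have hub : ∀ᶠ k in atTop, affDist Set.univ u (x k) y ≤ C₂ * dist (x k) y := by
    filter_upwards [hev] with k hk
    have h1 : affLength u (fun t => x k + t • (y - x k)) ≤ C₂ * dist (x k) y := by
      apply affLength_segment_le u hu hpos _ _ _ hC₂.le
      intro t ht v
      refine (hb₂ _ ?_ v).2
      have hcv := (convex_closedBall y 1) hk (Metric.mem_closedBall_self zero_le_one)
        (sub_nonneg.mpr ht.2) ht.1 (by ring)
      have e : (1 - t) • x k + t • y = x k + t • (y - x k) := by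
        rw [sub_smul, one_smul, smul_sub]; abel
      rwa [e] at hcv
    refine (csInf_le ?_ ?_).trans h1
    · refine ⟨0, ?_⟩
      rintro L ⟨γ, -, -, -, -, rfl⟩
      exact affLength_nonneg u γ
    · exact ⟨fun t => x k + t • (y - x k), by fun_prop, by simp only [zero_smul, add_zero], by simp, by simp only [Set.mem_Icc, Set.mem_univ, implies_true], rfl⟩
  have hlb : ∀ᶠ k in atTop, 0 ≤ affDist Set.univ u (x k) y := by
    refine Eventually.of_forall fun k => Real.sInf_nonneg ?_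
    rintro L ⟨γ, -, -, -, -, rfl⟩
    exact affLength_nonneg u γ
  have hlim : Tendsto (fun k => C₂ * dist (x k) y) atTop (𝓝 0) := by
    have := (tendsto_iff_dist_tendsto_zero.mp hy).const_mul C₂
    simpa using this
  exact tendsto_of_tendsto_of_tendsto_of_le_of_le' tendsto_const_nhds hlim hlb hub

end Vale.Agent.P252
end
end

section

section

open scoped ContDiff

namespace Vale.Agent.P252

/-- ODE data on `ρ > -ε`, where `ρ = |x|² / 2`. -/
structure OdeData (p : ℕ) where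
  ε : ℝ
  η : ℝ → ℝ
  a : ℝ → ℝ
  b : ℝ → ℝ
  b' : ℝ → ℝ
  ε_pos : 0 < ε
  η_smooth : ∀ ρ, -ε < ρ → ContDiffAt ℝ ∞ η ρ
  a_smooth : ∀ ρ, -ε < ρ → ContDiffAt ℝ ∞ a ρ
  b_smooth : ∀ ρ, -ε < ρ → ContDiffAt ℝ ∞ b ρ
  η_pos : ∀ ρ, -ε < ρ → 0 < η ρ
  a_pos : ∀ ρ, -ε < ρ → 0 < a ρ
  b_pos : ∀ ρ, -ε < ρ → 0 < b ρ
  pos1 : ∀ ρ, -ε < ρ → 0 < 1 + 2 * ρ * b ρ
  pos2 : ∀ ρ, -ε < ρ → 0 < p + 4 * ρ * a ρ
  hη : ∀ ρ, -ε < ρ → HasDerivAt η (a ρ * η ρ) ρ
  ha : ∀ ρ, -ε < ρ → HasDerivAt a (a ρ * (b ρ - a ρ)) ρ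
  hb : ∀ ρ, -ε < ρ → HasDerivAt b (b' ρ) ρ
  heq : ∀ ρ, -ε < ρ → (p + 4 * ρ * a ρ) * (2 * ρ * b' ρ + 2 * b ρ)
      = (1 + 2 * ρ * b ρ) * ((2 * p + 3) * a ρ - (p : ℝ) ^ 2 * b ρ + 4 * ρ * (a ρ) ^ 2
          + 12 * ρ * a ρ * b ρ)

end Vale.Agent.P252
end
end

section

section

open scoped ContDiff Topology
open Set MeasureTheory

namespace Vale.Agent.P252

lemma exists_primitive (ε : ℝ) (hε : 0 < ε) (a : ℝ → ℝ) (ha : ∀ ρ, -ε < ρ → ContDiffAt ℝ ∞ a ρ) :
    ∃ F : ℝ → ℝ, (∀ ρ, -ε < ρ → HasDerivAt F (a ρ) ρ) ∧ (∀ ρ, -ε < ρ → ContDiffAt ℝ ∞ F ρ) := by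
  have hac : ∀ ρ, -ε < ρ → ContinuousAt a ρ := fun ρ hρ => (ha ρ hρ).continuousAt
  have hd : ∀ ρ, -ε < ρ → HasDerivAt (fun x => ∫ t in (0:ℝ)..x, a t) (a ρ) ρ := by
    intro ρ hρ
    have hsub : uIcc 0 ρ ⊆ Ioi (-ε) := by
      intro x hx
      rw [mem_uIcc] at hx
      rw [mem_Ioi]
      rcases hx with hx | hx
      · linarith only [hε, hx]
      · linarith [hx.1]
    have hcont : ContinuousOn a (uIcc 0 ρ) := fun x hx => (hac x (hsub hx)).continuousWithinAt
    apply intervalIntegral.integral_hasDerivAt_right hcont.intervalIntegrable _ (hac ρ hρ)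
    have hco : ContinuousOn a (Ioi (-ε)) := fun x hx => (hac x hx).continuousWithinAt
    exact hco.stronglyMeasurableAtFilter isOpen_Ioi ρ hρ
  refine ⟨_, hd, ?_⟩
  have hco : ContDiffOn ℝ ∞ (fun x => ∫ t in (0:ℝ)..x, a t) (Ioi (-ε)) := by
    rw [contDiffOn_infty_iff_deriv_of_isOpen isOpen_Ioi]
    refine ⟨fun x hx => (hd x hx).differentiableAt.differentiableWithinAt, ?_⟩
    have h1 : ContDiffOn ℝ ∞ a (Ioi (-ε)) := fun x hx => (ha x hx).contDiffWithinAt
    exact h1.congr fun x hx => (hd x hx).deriv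
  intro ρ hρ
  exact hco.contDiffAt (isOpen_Ioi.mem_nhds hρ)

/-- the differential equations at a point -/
def OdeAt (p : ℕ) (a b : ℝ → ℝ) (ρ : ℝ) : Prop :=
  ContDiffAt ℝ ∞ a ρ ∧ ContDiffAt ℝ ∞ b ρ ∧ 0 < a ρ ∧ 0 < b ρ ∧ 0 < 1 + 2 * ρ * b ρ ∧
  0 < p + 4 * ρ * a ρ ∧ HasDerivAt a (a ρ * (b ρ - a ρ)) ρ ∧
  (p + 4 * ρ * a ρ) * (2 * ρ * deriv b ρ + 2 * b ρ)
        = (1 + 2 * ρ * b ρ) * ((2 * p + 3) * a ρ - (p:ℝ) ^ 2 * b ρ + 4 * ρ * (a ρ) ^ 2
          + 12 * ρ * a ρ * b ρ)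

lemma OdeAt.congr {p : ℕ} {a b a₂ b₂ : ℝ → ℝ} {ρ : ℝ} (h : OdeAt p a b ρ)
    (ha : a₂ =ᶠ[𝓝 ρ] a) (hb : b₂ =ᶠ[𝓝 ρ] b) : OdeAt p a₂ b₂ ρ := by
  obtain ⟨h1, h2, h3, h4, h5, h6, h7, h8⟩ := h
  have ea := ha.self_of_nhds
  have eb := hb.self_of_nhds
  refine ⟨h1.congr_of_eventuallyEq ha, h2.congr_of_eventuallyEq hb, ?_, ?_, ?_, ?_, ?_, ?_⟩
  · rw [ea]; exact h3
  · rw [eb]; exact h4
  · rw [eb]; exact h5
  · rw [ea]; exact h6
  · rw [ea, eb]; exact h7.congr_of_eventuallyEq ha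
  · rw [ea, eb, hb.deriv_eq]; exact h8

lemma odeData_of_odeAt (p : ℕ) (ε : ℝ) (hε : 0 < ε) (a b : ℝ → ℝ)
    (h : ∀ ρ, -ε < ρ → OdeAt p a b ρ) : ∃ D : OdeData p, D.ε = ε ∧ D.a = a ∧ D.b = b := by
  obtain ⟨F, hF1, hF2⟩ := exists_primitive ε hε a (fun ρ hρ => (h ρ hρ).1)
  refine ⟨{ ε := ε, η := fun ρ => Real.exp (F ρ), a := a, b := b, b' := deriv b, ε_pos := hε,
            η_smooth := ?_, a_smooth := fun ρ hρ => (h ρ hρ).1, b_smooth := fun ρ hρ => (h ρ hρ).2.1,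
            η_pos := fun ρ _ => Real.exp_pos _, a_pos := fun ρ hρ => (h ρ hρ).2.2.1,
            b_pos := fun ρ hρ => (h ρ hρ).2.2.2.1, pos1 := fun ρ hρ => (h ρ hρ).2.2.2.2.1,
            pos2 := fun ρ hρ => (h ρ hρ).2.2.2.2.2.1, hη := ?_,
            ha := fun ρ hρ => (h ρ hρ).2.2.2.2.2.2.1, hb := ?_,
            heq := fun ρ hρ => (h ρ hρ).2.2.2.2.2.2.2 }, rfl, rfl, rfl⟩
  · intro ρ hρ
    exact (hF2 ρ hρ).exp
  · intro ρ hρ
    have := (hF1 ρ hρ).exp
    rwa [mul_comm] at this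
  · intro ρ hρ
    exact ((h ρ hρ).2.1.differentiableAt (by simp)).hasDerivAt


/-- right-hand sides of the phase-plane system -/
noncomputable def rhsX (p : ℕ) (Q X : ℝ) : ℝ :=
  X * ((p:ℝ) ^ 2 + (2 * p - 3) * Q + 2 * Q ^ 2 - ((p:ℝ) ^ 2 - 6 * Q) * X) / (p + 2 * Q)

lemma phase_of_local {p : ℕ} {α β : ℝ → ℝ} {t : ℝ} (h : OdeAt p α β (Real.exp (2 * t) / 2)) :
    HasDerivAt (fun t => Real.exp (2 * t) * α (Real.exp (2 * t) / 2))
      ((Real.exp (2 * t) * α (Real.exp (2 * t) / 2)) * ((1 + Real.exp (2 * t) * β (Real.exp (2 * t) / 2))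
        + 1 - Real.exp (2 * t) * α (Real.exp (2 * t) / 2))) t ∧
    HasDerivAt (fun t => 1 + Real.exp (2 * t) * β (Real.exp (2 * t) / 2))
      (rhsX p (Real.exp (2 * t) * α (Real.exp (2 * t) / 2))
        (1 + Real.exp (2 * t) * β (Real.exp (2 * t) / 2))) t := by
  obtain ⟨h1, h2, h3, h4, h5, h6, h7, h8⟩ := h
  have hb : HasDerivAt β (deriv β (Real.exp (2 * t) / 2)) (Real.exp (2 * t) / 2) :=
    (h2.differentiableAt (by simp)).hasDerivAt
  have he : HasDerivAt (fun t => Real.exp (2 * t)) (Real.exp (2 * t) * 2) t := by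
    have : HasDerivAt (fun t : ℝ => 2 * t) 2 t := by simpa using (hasDerivAt_id t).const_mul 2
    exact this.exp
  have he2 : HasDerivAt (fun t => Real.exp (2 * t) / 2) (Real.exp (2 * t)) t := by
    have := he.div_const 2
    simpa only [isUnit_iff_ne_zero, ne_eq, OfNat.ofNat_ne_zero, not_false_eq_true,     IsUnit.mul_div_cancel_right] using this
  have ha' := h7.comp t he2
  have hb' := hb.comp t he2
  set E := Real.exp (2 * t) with hE
  constructor
  · convert! he.mul ha' using 1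
    simp only [Function.comp]
    ring
  · convert! (he.mul hb').const_add 1 using 1
    simp only [Function.comp]
    unfold rhsX
    have h6' : (p:ℝ) + 2 * (E * α (E / 2)) ≠ 0 := by
      have : (p:ℝ) + 4 * (E / 2) * α (E / 2) = p + 2 * (E * α (E / 2)) := by ring
      rw [← this]; exact h6.ne'
    rw [div_eq_iff h6']
    have h9 : (E * 2 * β (E / 2) + E * (deriv β (E / 2) * E)) * (↑p + 2 * (E * α (E / 2)))
      = E * ((p + 4 * (E / 2) * α (E / 2)) * (2 * (E / 2) * deriv β (E / 2) + 2 * β (E / 2))) := by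
      ring
    rw [h9, h8]
    ring

lemma local_of_phase {p : ℕ} (hp : 9 ≤ p) {Q X : ℝ → ℝ} {ρ : ℝ} (hρ : 0 < ρ)
    (hQs : ContDiffAt ℝ ∞ Q (Real.log (2 * ρ) / 2)) (hXs : ContDiffAt ℝ ∞ X (Real.log (2 * ρ) / 2))
    (hQ0 : 0 < Q (Real.log (2 * ρ) / 2)) (hX1 : 1 < X (Real.log (2 * ρ) / 2))
    (hQ : HasDerivAt Q (Q (Real.log (2 * ρ) / 2) *
      (X (Real.log (2 * ρ) / 2) + 1 - Q (Real.log (2 * ρ) / 2))) (Real.log (2 * ρ) / 2))
    (hX : HasDerivAt X (rhsX p (Q (Real.log (2 * ρ) / 2)) (X (Real.log (2 * ρ) / 2)))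
      (Real.log (2 * ρ) / 2)) :
    OdeAt p (fun ρ => Q (Real.log (2 * ρ) / 2) / (2 * ρ))
      (fun ρ => (X (Real.log (2 * ρ) / 2) - 1) / (2 * ρ)) ρ := by
  have hlog : HasDerivAt (fun ρ => Real.log (2 * ρ) / 2) (1 / (2 * ρ)) ρ := by
    have h1 : HasDerivAt (fun ρ : ℝ => 2 * ρ) 2 ρ := by simpa using (hasDerivAt_id ρ).const_mul 2
    have h2 := (h1.log (by positivity)).div_const 2
    convert! h2 using 1
    field_simp
  have hlogs : ContDiffAt ℝ ∞ (fun ρ => Real.log (2 * ρ) / 2) ρ := by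
    have : ContDiffAt ℝ ∞ (fun ρ : ℝ => Real.log (2 * ρ)) ρ := by
      apply ContDiffAt.log
      · fun_prop
      · positivity
    exact this.div_const 2
  have h2ρ : HasDerivAt (fun ρ : ℝ => 2 * ρ) 2 ρ := by simpa using (hasDerivAt_id ρ).const_mul 2
  have hne : (2 * ρ) ≠ 0 := by positivity
  have hdQ := (hQ.comp ρ hlog).div h2ρ hne
  have hdX := ((hX.comp ρ hlog).sub_const 1).div h2ρ hne
  set q := Q (Real.log (2 * ρ) / 2) with hq
  set x := X (Real.log (2 * ρ) / 2) with hx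
  have hp' : (0:ℝ) < p := by
    have : 0 < p := by omega
    exact_mod_cast this
  refine ⟨?_, ?_, ?_, ?_, ?_, ?_, ?_, ?_⟩
  · apply ContDiffAt.div _ (by fun_prop) hne
    exact hQs.comp ρ hlogs
  · apply ContDiffAt.div _ (by fun_prop) hne
    exact (hXs.comp ρ hlogs).sub contDiffAt_const
  · (clear * - hQ0 hρ; positivity)
  · have : 0 < x - 1 := by linarith only [hX1]
    (clear * - hX1 hρ; positivity)
  · have : 1 + 2 * ρ * ((x - 1) / (2 * ρ)) = x := by field_simp; ring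
    simp only
    rw [← hx, this]; linarith only [hX1]
  · positivity
  · convert! hdQ using 1
    simp only [Function.comp]
    rw [← hq, ← hx]
    field_simp
    ring
  · have hd : deriv (fun ρ => (X (Real.log (2 * ρ) / 2) - 1) / (2 * ρ)) ρ = _ := hdX.deriv
    rw [hd]
    simp only [Function.comp]
    rw [← hx, ← hq]
    unfold rhsX
    have : (p:ℝ) + 2 * q ≠ 0 := by positivity
    field_simp
    ring


lemma exp_log_half {ρ : ℝ} (hρ : 0 < ρ) : Real.exp (2 * (Real.log (2 * ρ) / 2)) = 2 * ρ := by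
  rw [mul_div_cancel₀ _ (two_ne_zero), Real.exp_log (by positivity)]

theorem exists_odeData' (p : ℕ) (hp : 9 ≤ p) :
    ∃ D : OdeData p, ∀ ρ, -D.ε < ρ → D.b ρ < 5 / 9 * D.a ρ := by
  have hp9 : (9:ℝ) ≤ p := by exact_mod_cast hp
  obtain ⟨δ, α, β, hδ, hα0, hβ0, h⟩ := local_ode p (by omega)
  obtain ⟨hanα, hanβ, -⟩ := h 0 (by simpa using hδ)
  have hcα := hanα.continuousAt
  have hcβ := hanβ.continuousAt
  have hβ1 : 0 < β 0 := by rw [hβ0]; positivity
  have hβ2 : β 0 < 5 / 9 * α 0 := by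
    rw [hβ0, hα0, mul_one, div_lt_div_iff₀ (by positivity) (by norm_num)]
    nlinarith only [hp9]
  have hcid : ContinuousAt (fun x : ℝ => x) 0 := continuousAt_id
  have c1 : ∀ᶠ x in 𝓝 (0:ℝ), 0 < α x := hcα.eventually (lt_mem_nhds (by rw [hα0]; norm_num))
  have c2 : ∀ᶠ x in 𝓝 (0:ℝ), 0 < β x := hcβ.eventually (lt_mem_nhds hβ1)
  have c3 : ∀ᶠ x in 𝓝 (0:ℝ), β x < 5 / 9 * α x :=
    hcβ.eventually_lt (hcα.const_mul _) hβ2
  have c4 : ∀ᶠ x in 𝓝 (0:ℝ), 2 * x * α x < 9 / 2 := by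
    apply ContinuousAt.eventually_lt ((hcid.const_mul 2).mul hcα) continuousAt_const
    simp
  have c5 : ∀ᶠ x in 𝓝 (0:ℝ), 0 < 1 + 2 * x * β x := by
    apply ContinuousAt.eventually_lt continuousAt_const
      (((hcid.const_mul 2).mul hcβ).const_add 1)
    simp
  obtain ⟨δ₂, hδ₂, hall⟩ := Metric.eventually_nhds_iff.1 (c1.and (c2.and (c3.and (c4.and c5))))
  set δ' := min δ δ₂ with hδ'
  have hδ'pos : 0 < δ' := by positivity
  have hin : ∀ x, |x| < δ' → 0 < α x ∧ 0 < β x ∧ β x < 5 / 9 * α x ∧ 2 * x * α x < 9 / 2 ∧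
      0 < 1 + 2 * x * β x := by
    intro x hx
    apply hall
    rw [Real.dist_eq, sub_zero]
    exact lt_of_lt_of_le hx (min_le_right _ _)
  have hO : ∀ ρ, |ρ| < δ' → OdeAt p α β ρ := by
    intro ρ hρ
    obtain ⟨h1, h2, h3, h4, h5⟩ := h ρ (lt_of_lt_of_le hρ (min_le_left _ _))
    obtain ⟨i1, i2, i3, i4, i5⟩ := hin ρ hρ
    exact ⟨h1.contDiffAt, h2.contDiffAt, i1, i2, i5, h3, h4, h5⟩
  -- the local solution in the phase plane
  set t₁ := Real.log (2 * (δ' / 4)) / 2 with ht₁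
  set t₂ := Real.log (2 * (δ' / 2)) / 2 with ht₂
  have het : ∀ t, t ≤ t₂ → 0 < Real.exp (2 * t) / 2 ∧ |Real.exp (2 * t) / 2| < δ' := by
    intro t ht
    have h1 : Real.exp (2 * t) ≤ 2 * (δ' / 2) := by
      rw [← exp_log_half (ρ := δ' / 2) (by (clear * - hδ hδ₂; positivity))]
      apply Real.exp_le_exp.2
      rw [← ht₂]; linarith only [ht]
    have h2 := Real.exp_pos (2 * t)
    refine ⟨by positivity, ?_⟩
    rw [abs_of_pos (by positivity)]
    linarith only [hδ'pos, h1]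
  have hloc : ∀ t, t ≤ t₂ →
      (0 < Real.exp (2 * t) * α (Real.exp (2 * t) / 2) ∧
        1 < 1 + Real.exp (2 * t) * β (Real.exp (2 * t) / 2) ∧
        1 + Real.exp (2 * t) * β (Real.exp (2 * t) / 2) <
          1 + 5 / 9 * (Real.exp (2 * t) * α (Real.exp (2 * t) / 2)) ∧
        Real.exp (2 * t) * α (Real.exp (2 * t) / 2) < 9 / 2) := by
    intro t ht
    obtain ⟨e1, e2⟩ := het t ht
    obtain ⟨i1, i2, i3, i4, i5⟩ := hin _ e2
    have hE := Real.exp_pos (2 * t)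
    refine ⟨by (clear * - i1; positivity), ?_, ?_, ?_⟩
    · have : 0 < Real.exp (2 * t) * β (Real.exp (2 * t) / 2) := by (clear * - i2; positivity)
      linarith only [this]
    · have := mul_lt_mul_of_pos_left i3 hE
      linarith only [this]
    · have : 2 * (Real.exp (2 * t) / 2) * α (Real.exp (2 * t) / 2)
        = Real.exp (2 * t) * α (Real.exp (2 * t) / 2) := by ring
      rwa [this] at i4
  have ht12 : t₁ < t₂ := by
    rw [ht₁, ht₂]
    have : Real.log (2 * (δ' / 4)) < Real.log (2 * (δ' / 2)) := by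
      apply Real.log_lt_log (by (clear * - hδ hδ₂; positivity))
      linarith only [hδ'pos]
    linarith only [this]
  obtain ⟨k1, k2, k3, k4⟩ := hloc t₁ ht12.le
  obtain ⟨Q, X, hQ1, hX1, hg⟩ := exists_global p hp t₁ _ _ k1 k2 k3 k4
  have hsm := smooth_global p hp t₁ Q X hg
  have huniq := unique_global p hp t₁ t₂ Q X (fun t => Real.exp (2 * t) * α (Real.exp (2 * t) / 2))
    (fun t => 1 + Real.exp (2 * t) * β (Real.exp (2 * t) / 2))
    (by
      intro t ht
      obtain ⟨g1, g2, g3⟩ := hg t ht.1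
      exact ⟨g1, g2.mono Icc_subset_Ici_self, g3.mono Icc_subset_Ici_self⟩)
    (by
      intro t ht
      obtain ⟨l1, l2⟩ := phase_of_local (hO _ (het t ht.2).2)
      exact ⟨hloc t ht.2, l1.hasDerivWithinAt, l2.hasDerivWithinAt⟩)
    hQ1 hX1
  -- the glued functions
  let a : ℝ → ℝ := fun ρ => if ρ < 3 * δ' / 8 then α ρ else Q (Real.log (2 * ρ) / 2) / (2 * ρ)
  let b : ℝ → ℝ := fun ρ => if ρ < 3 * δ' / 8 then β ρ else (X (Real.log (2 * ρ) / 2) - 1) / (2 * ρ)
  have heq : ∀ x, 3 * δ' / 8 ≤ x → x < δ' / 2 →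
      Q (Real.log (2 * x) / 2) / (2 * x) = α x ∧ (X (Real.log (2 * x) / 2) - 1) / (2 * x) = β x := by
    intro x hx1 hx2
    have hx0 : 0 < x := by linarith only [hx1, hx2]
    have m : Real.log (2 * x) / 2 ∈ Icc t₁ t₂ := by
      constructor
      · rw [ht₁]
        have : Real.log (2 * (δ' / 4)) ≤ Real.log (2 * x) :=
          Real.log_le_log (by (clear * - hδ hδ₂; positivity)) (by linarith only [hx1, hx2])
        linarith only [this]
      · rw [ht₂]
        have : Real.log (2 * x) ≤ Real.log (2 * (δ' / 2)) :=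
          Real.log_le_log (by (clear * - hx0; positivity)) (by linarith only [hx2])
        linarith only [this]
    obtain ⟨u1, u2⟩ := huniq _ m
    rw [exp_log_half hx0] at u1 u2
    have e : 2 * x / 2 = x := by ring
    rw [e] at u1 u2
    rw [u1, u2]
    constructor
    · (clear * - hx0; field_simp)
    · field_simp
      ring
  have hmain : ∀ ρ, -δ' < ρ → OdeAt p a b ρ := by
    intro ρ hρ
    by_cases hc : ρ < δ' / 2
    · have hρ' : |ρ| < δ' := abs_lt.2 ⟨hρ, by linarith only [hδ'pos, hc]⟩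
      apply (hO ρ hρ').congr
      · filter_upwards [gt_mem_nhds hc] with x hx
        by_cases hx' : x < 3 * δ' / 8
        · simp only [a, hx', if_true]
        · simp only [a, hx', if_false]
          exact (heq x (not_lt.1 hx') hx).1
      · filter_upwards [gt_mem_nhds hc] with x hx
        by_cases hx' : x < 3 * δ' / 8
        · simp only [b, hx', if_true]
        · simp only [b, hx', if_false]
          exact (heq x (not_lt.1 hx') hx).2
    · have hc' : δ' / 2 ≤ ρ := not_lt.1 hc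
      have hρ0 : 0 < ρ := by linarith only [hδ'pos, hc]
      have hlt : 3 * δ' / 8 < ρ := by linarith only [hc, hρ0]
      have ht : t₁ < Real.log (2 * ρ) / 2 := by
        rw [ht₁]
        have : Real.log (2 * (δ' / 4)) < Real.log (2 * ρ) :=
          Real.log_lt_log (by (clear * - hδ hδ₂; positivity)) (by linarith only [hc, hρ0])
        linarith only [this]
      obtain ⟨g1, g2, g3⟩ := hg _ ht.le
      have hm : Ici t₁ ∈ 𝓝 (Real.log (2 * ρ) / 2) := Ici_mem_nhds ht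
      have := local_of_phase hp hρ0 (hsm _ ht).1 (hsm _ ht).2 g1.1 g1.2.1 (g2.hasDerivAt hm)
        (g3.hasDerivAt hm)
      apply this.congr
      · filter_upwards [lt_mem_nhds hlt] with x hx
        have hx' : ¬ (x < 3 * δ' / 8) := not_lt.2 hx.le
        simp only [a, hx', if_false]
      · filter_upwards [lt_mem_nhds hlt] with x hx
        have hx' : ¬ (x < 3 * δ' / 8) := not_lt.2 hx.le
        simp only [b, hx', if_false]
  have hmain2 : ∀ ρ, -δ' < ρ → b ρ < 5 / 9 * a ρ := by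
    intro ρ hρ
    by_cases hc : ρ < 3 * δ' / 8
    · have hρ' : |ρ| < δ' := abs_lt.2 ⟨hρ, by linarith only [hδ'pos, hc]⟩
      simp only [a, b, hc, if_true]
      exact (hin ρ hρ').2.2.1
    · have hc' : 3 * δ' / 8 ≤ ρ := not_lt.1 hc
      have hρ0 : 0 < ρ := by linarith only [hδ'pos, hc]
      have ht : t₁ ≤ Real.log (2 * ρ) / 2 := by
        rw [ht₁]
        have : Real.log (2 * (δ' / 4)) ≤ Real.log (2 * ρ) :=
          Real.log_le_log (by (clear * - hδ hδ₂; positivity)) (by linarith only [hc, hρ0])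
        linarith only [this]
      obtain ⟨g1, g2, g3⟩ := hg _ ht
      simp only [a, b, hc, if_false]
      rw [← mul_div_assoc]
      apply (div_lt_div_iff_of_pos_right (by (clear * - hρ0; positivity))).2
      linarith only [g1]
  obtain ⟨D, hD1, hD2, hD3⟩ := odeData_of_odeAt p δ' hδ'pos a b hmain
  refine ⟨D, ?_⟩
  rw [hD1, hD2, hD3]
  exact hmain2

theorem exists_odeData (p : ℕ) (hp : 9 ≤ p) : Nonempty (OdeData p) := by
  obtain ⟨D, -⟩ := exists_odeData' p hp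
  exact ⟨D⟩

end Vale.Agent.P252
end
end

section

section

open scoped ContDiff

namespace Vale.Agent.P252

/-- half the squared norm of the last `p` coordinates -/
noncomputable def rho {p : ℕ} (x : EuclideanSpace ℝ (Fin (p + 1))) : ℝ :=
  (∑ i : Fin p, (x i.succ) ^ 2) / 2

/-- differential of the `0`-th coordinate -/
noncomputable def dy {p : ℕ} : EuclideanSpace ℝ (Fin (p + 1)) →L[ℝ] ℝ :=
  EuclideanSpace.proj (0 : Fin (p + 1))

/-- differential of `rho` -/
noncomputable def drho {p : ℕ} (x : EuclideanSpace ℝ (Fin (p + 1))) :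
    EuclideanSpace ℝ (Fin (p + 1)) →L[ℝ] ℝ :=
  ∑ i : Fin p, (x i.succ) • (EuclideanSpace.proj (i.succ : Fin (p + 1)) :
    EuclideanSpace ℝ (Fin (p + 1)) →L[ℝ] ℝ)

/-- `F` has differential `α dy + β drho` everywhere. -/
def DD {p : ℕ} (F α β : EuclideanSpace ℝ (Fin (p + 1)) → ℝ) : Prop :=
  ∀ x, HasFDerivAt F (α x • (dy : EuclideanSpace ℝ (Fin (p + 1)) →L[ℝ] ℝ) + β x • drho x) x

variable {p : ℕ}

lemma rho_nonneg (x : EuclideanSpace ℝ (Fin (p + 1))) : 0 ≤ rho x := by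
  unfold rho; positivity

lemma dy_single_zero : (dy : EuclideanSpace ℝ (Fin (p + 1)) →L[ℝ] ℝ)
    (EuclideanSpace.single 0 1) = 1 := by
  simp [dy]

lemma dy_single_succ (i : Fin p) : (dy : EuclideanSpace ℝ (Fin (p + 1)) →L[ℝ] ℝ)
    (EuclideanSpace.single i.succ 1) = 0 := by
  simp [dy]

lemma drho_single_zero (x : EuclideanSpace ℝ (Fin (p + 1))) :
    drho x (EuclideanSpace.single 0 1) = 0 := by
  simp only [drho, sum_apply, smul_apply, PiLp.proj_apply, ne_eq, Fin.succ_ne_zero, not_false_eq_true, PiLp.single_eq_of_ne, smul_eq_mul, mul_zero, Finset.sum_const_zero]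

lemma drho_single_succ (x : EuclideanSpace ℝ (Fin (p + 1))) (i : Fin p) :
    drho x (EuclideanSpace.single i.succ 1) = x i.succ := by
  simp only [drho, sum_apply, smul_apply, PiLp.proj_apply, PiLp.single_apply, Fin.succ_inj, smul_eq_mul, mul_ite, mul_one, mul_zero, Finset.sum_ite_eq', Finset.mem_univ, ↓reduceIte]

lemma DD.y : DD (fun x : EuclideanSpace ℝ (Fin (p + 1)) => x 0) (fun _ => 1) (fun _ => 0) := by
  intro x
  have h := (dy : EuclideanSpace ℝ (Fin (p + 1)) →L[ℝ] ℝ).hasFDerivAt (x := x)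
  exact HasFDerivAt.congr_fderiv h (by ext v; simp)

lemma DD.rho : DD (fun x : EuclideanSpace ℝ (Fin (p + 1)) => rho x) (fun _ => 0)
    (fun _ => 1) := by
  intro x
  have h : HasFDerivAt (fun x : EuclideanSpace ℝ (Fin (p + 1)) => ∑ i : Fin p, (x i.succ) ^ 2)
      (∑ i : Fin p, ((2 * (x i.succ) ^ (2 - 1)) • (EuclideanSpace.proj (i.succ : Fin (p + 1)) :
    EuclideanSpace ℝ (Fin (p + 1)) →L[ℝ] ℝ))) x := by
    apply HasFDerivAt.fun_sum
    intro i _
    have := ((EuclideanSpace.proj (i.succ : Fin (p + 1)) :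
      EuclideanSpace ℝ (Fin (p + 1)) →L[ℝ] ℝ).hasFDerivAt (x := x)).pow 2
    exact HasFDerivAt.congr_fderiv this (by ext v; simp)
  have h2 := h.mul_const (1 / 2 : ℝ)
  have e : (fun x : EuclideanSpace ℝ (Fin (p + 1)) => Vale.Agent.P252.rho x) =
      fun x => (∑ i : Fin p, (x i.succ) ^ 2) * (1 / 2) := by
    funext x; unfold Vale.Agent.P252.rho; ring
  rw [e]
  refine HasFDerivAt.congr_fderiv h2 ?_
  ext v
  simp only [drho, Finset.smul_sum, _root_.sum_apply, _root_.add_apply,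
    _root_.smul_apply, smul_eq_mul, zero_mul, one_mul, zero_add]
  apply Finset.sum_congr rfl
  intro i _
  ring

lemma DD.congr {F α β α' β' : EuclideanSpace ℝ (Fin (p + 1)) → ℝ} (h : DD F α β)
    (h1 : ∀ x, α x = α' x) (h2 : ∀ x, β x = β' x) : DD F α' β' := by
  intro x
  rw [← h1 x, ← h2 x]; exact h x

lemma DD.const (c : ℝ) : DD (fun _ : EuclideanSpace ℝ (Fin (p + 1)) => c) (fun _ => 0)
    (fun _ => 0) := by
  intro x
  exact HasFDerivAt.congr_fderiv (hasFDerivAt_const c x) (by ext v; simp)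

lemma DD.add {F G α β α' β' : EuclideanSpace ℝ (Fin (p + 1)) → ℝ} (hF : DD F α β)
    (hG : DD G α' β') : DD (fun x => F x + G x) (fun x => α x + α' x)
      (fun x => β x + β' x) := by
  intro x
  refine HasFDerivAt.congr_fderiv ((hF x).fun_add (hG x)) ?_
  ext v
  simp only [_root_.add_apply, _root_.smul_apply, smul_eq_mul]
  ring

lemma DD.mul {F G α β α' β' : EuclideanSpace ℝ (Fin (p + 1)) → ℝ} (hF : DD F α β)
    (hG : DD G α' β') : DD (fun x => F x * G x) (fun x => F x * α' x + G x * α x)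
      (fun x => F x * β' x + G x * β x) := by
  intro x
  refine HasFDerivAt.congr_fderiv ((hF x).fun_mul (hG x)) ?_
  ext v
  simp only [_root_.add_apply, _root_.smul_apply, smul_eq_mul]
  ring

lemma DD.comp {F α β : EuclideanSpace ℝ (Fin (p + 1)) → ℝ} (hF : DD F α β)
    {φ : ℝ → ℝ} {d : EuclideanSpace ℝ (Fin (p + 1)) → ℝ}
    (h : ∀ x, HasDerivAt φ (d x) (F x)) :
    DD (fun x => φ (F x)) (fun x => d x * α x) (fun x => d x * β x) := by
  intro x
  refine HasFDerivAt.congr_fderiv ((h x).comp_hasFDerivAt x (hF x)) ?_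
  ext v
  simp only [_root_.add_apply, _root_.smul_apply, smul_eq_mul]
  ring

lemma DD.pd_zero {F α β : EuclideanSpace ℝ (Fin (p + 1)) → ℝ} (hF : DD F α β) :
    pd 0 F = α := by
  funext x
  unfold pd
  rw [(hF x).fderiv]
  simp [dy_single_zero, drho_single_zero]

lemma DD.pd_succ {F α β : EuclideanSpace ℝ (Fin (p + 1)) → ℝ} (hF : DD F α β) (i : Fin p) :
    pd i.succ F = fun x => β x * x i.succ := by
  funext x
  unfold pd
  rw [(hF x).fderiv]
  simp [dy_single_succ, drho_single_succ]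

/-- the matrix family `[[c, β xᵀ], [β x, α I + γ x xᵀ]]` -/
def Mx (x : Fin p → ℝ) (c β α γ : ℝ) : Matrix (Fin (p + 1)) (Fin (p + 1)) ℝ :=
  Matrix.of fun i j =>
    Fin.cases (motive := fun _ => ℝ) (Fin.cases (motive := fun _ => ℝ) c (fun j => β * x j) j)
      (fun i => Fin.cases (motive := fun _ => ℝ) (β * x i)
        (fun j => (if i = j then α else 0) + γ * x i * x j) j) i

@[simp] lemma Mx_zero_zero (x : Fin p → ℝ) (c β α γ : ℝ) : Mx x c β α γ 0 0 = c := rfl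
@[simp] lemma Mx_zero_succ (x : Fin p → ℝ) (c β α γ : ℝ) (j : Fin p) :
    Mx x c β α γ 0 j.succ = β * x j := rfl
@[simp] lemma Mx_succ_zero (x : Fin p → ℝ) (c β α γ : ℝ) (i : Fin p) :
    Mx x c β α γ i.succ 0 = β * x i := rfl
@[simp] lemma Mx_succ_succ (x : Fin p → ℝ) (c β α γ : ℝ) (i j : Fin p) :
    Mx x c β α γ i.succ j.succ = (if i = j then α else 0) + γ * x i * x j := rfl

lemma hess_of_DD {F α β α₁ α₂ β₂ : EuclideanSpace ℝ (Fin (p + 1)) → ℝ} (hF : DD F α β)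
    (hα : DD α α₁ α₂) (hβ : DD β α₂ β₂) (x : EuclideanSpace ℝ (Fin (p + 1))) :
    hess F x = Mx (fun i => x i.succ) (α₁ x) (α₂ x) (β x) (β₂ x) := by
  ext i j
  unfold hess
  simp only [Matrix.of_apply]
  refine Fin.cases ?_ (fun i => ?_) i <;> refine Fin.cases ?_ (fun j => ?_) j
  · rw [hF.pd_zero, hα.pd_zero]; simp
  · rw [hF.pd_succ]
    unfold pd
    have h1 : HasFDerivAt (fun x : EuclideanSpace ℝ (Fin (p + 1)) => x j.succ)
      (EuclideanSpace.proj (j.succ : Fin (p + 1)) :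
        EuclideanSpace ℝ (Fin (p + 1)) →L[ℝ] ℝ) x :=
      (EuclideanSpace.proj (j.succ : Fin (p + 1)) :
        EuclideanSpace ℝ (Fin (p + 1)) →L[ℝ] ℝ).hasFDerivAt
    have h2 := (hβ x).fun_mul h1
    rw [h2.fderiv]
    simp [dy_single_zero, drho_single_zero, mul_comm]
  · rw [hF.pd_zero, hα.pd_succ]; simp
  · rw [hF.pd_succ]
    unfold pd
    have h1 : HasFDerivAt (fun x : EuclideanSpace ℝ (Fin (p + 1)) => x j.succ)
      (EuclideanSpace.proj (j.succ : Fin (p + 1)) :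
        EuclideanSpace ℝ (Fin (p + 1)) →L[ℝ] ℝ) x :=
      (EuclideanSpace.proj (j.succ : Fin (p + 1)) :
        EuclideanSpace ℝ (Fin (p + 1)) →L[ℝ] ℝ).hasFDerivAt
    have h2 := (hβ x).fun_mul h1
    rw [h2.fderiv]
    by_cases hij : i = j
    · subst hij
      simp [dy_single_succ, drho_single_succ]
      ring
    · have hij' : j ≠ i := fun h => hij h.symm
      simp [dy_single_succ, drho_single_succ, hij]
      ring

end Vale.Agent.P252
end
end

section

section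

namespace Vale.Agent.P252

variable {p : ℕ}

/-- equivalence used to view `Mx` as a block matrix -/
def eqv (p : ℕ) : Fin (p + 1) ≃ Unit ⊕ Fin p :=
  (finSuccEquiv p).trans ((Equiv.optionEquivSumPUnit (Fin p)).trans (Equiv.sumComm _ _))

lemma eqv_symm_inl (u : Unit) : (eqv p).symm (Sum.inl u) = 0 := by
  simp [eqv]

lemma eqv_symm_inr (i : Fin p) : (eqv p).symm (Sum.inr i) = i.succ := by
  simp [eqv]

lemma det_rankone (x : Fin p → ℝ) (α γ : ℝ) (hα : α ≠ 0) :
    (Matrix.of fun i j : Fin p => (if i = j then α else 0) + γ * x i * x j).det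
      = α ^ p * (1 + γ / α * ∑ i, x i ^ 2) := by
  have e : (Matrix.of fun i j : Fin p => (if i = j then α else 0) + γ * x i * x j)
      = α • (1 + Matrix.replicateCol Unit (fun i => γ / α * x i) *
          Matrix.replicateRow Unit x) := by
    ext i j
    simp only [Matrix.of_apply, Matrix.smul_apply, Matrix.add_apply, Matrix.one_apply,
      Matrix.mul_apply, Matrix.replicateCol_apply, Matrix.replicateRow_apply, smul_eq_mul,
      Finset.univ_unique, Finset.sum_singleton]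
    split_ifs <;> (try field_simp) <;> (try ring)
  rw [e, Matrix.det_smul, Matrix.det_one_add_replicateCol_mul_replicateRow]
  simp only [Fintype.card_fin, dotProduct]
  congr 2
  rw [Finset.mul_sum]
  apply Finset.sum_congr rfl
  intro i _
  ring

lemma det_Mx (x : Fin p → ℝ) (c β α γ : ℝ) (hα : α ≠ 0) (hc : c ≠ 0) :
    (Mx x c β α γ).det = c * (α ^ p * (1 + (γ - β ^ 2 / c) / α * ∑ i, x i ^ 2)) := by
  rw [← Matrix.det_reindex_self (eqv p)]
  have e : Matrix.reindex (eqv p) (eqv p) (Mx x c β α γ) =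
      Matrix.fromBlocks (Matrix.of fun _ _ : Unit => c) (Matrix.of fun _ j => β * x j)
        (Matrix.of fun i _ => β * x i)
        (Matrix.of fun i j : Fin p => (if i = j then α else 0) + γ * x i * x j) := by
    ext i j
    rcases i with i | i <;> rcases j with j | j <;>
      simp [Matrix.reindex_apply, eqv_symm_inl, eqv_symm_inr]
  rw [e]
  let _ : Invertible (Matrix.of fun _ _ : Unit => c) :=
    { invOf := Matrix.of fun _ _ : Unit => c⁻¹
      invOf_mul_self := by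
        ext i j; simp only [Matrix.mul_apply, Finset.univ_unique, PUnit.default_eq_unit, Matrix.of_apply, ne_eq, hc, not_false_eq_true, inv_mul_cancel₀, Finset.sum_const, Finset.card_singleton, one_smul, Matrix.one_apply_eq]
      mul_invOf_self := by
        ext i j; simp [Matrix.mul_apply, hc] }
  rw [Matrix.det_fromBlocks₁₁]
  have e2 : ⅟(Matrix.of fun _ _ : Unit => c) = Matrix.of fun _ _ : Unit => c⁻¹ := rfl
  rw [e2]
  have e3 : (Matrix.of fun i j : Fin p => (if i = j then α else 0) + γ * x i * x j) -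
      (Matrix.of fun i (_ : Unit) => β * x i) * (Matrix.of fun _ _ : Unit => c⁻¹) *
        (Matrix.of fun (_ : Unit) j => β * x j)
      = (Matrix.of fun i j : Fin p => (if i = j then α else 0) + (γ - β ^ 2 / c) * x i * x j) := by
    ext i j
    simp only [Matrix.sub_apply, Matrix.mul_apply, Matrix.of_apply, Finset.univ_unique,
      Finset.sum_singleton]
    field_simp
    ring
  rw [e3, det_rankone x α _ hα]
  simp only [Matrix.det_unique, PUnit.default_eq_unit, Matrix.of_apply]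

lemma Mx_mul_inv (x : Fin p → ℝ) (c β α γ c' β' α' γ' s : ℝ) (hs : s = ∑ i, x i ^ 2)
    (h1 : c * c' + β * β' * s = 1) (h2 : c * β' + β * (α' + γ' * s) = 0)
    (h3 : β * c' + (α + γ * s) * β' = 0) (h4 : α * α' = 1)
    (h5 : β * β' + α * γ' + γ * α' + γ * γ' * s = 0) :
    Mx x c β α γ * Mx x c' β' α' γ' = 1 := by
  ext i j
  rw [Matrix.mul_apply, Fin.sum_univ_succ]
  refine Fin.cases ?_ (fun i => ?_) i <;> refine Fin.cases ?_ (fun j => ?_) j
  · simp only [Mx_zero_zero, Mx_zero_succ, Mx_succ_zero, Matrix.one_apply_eq]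
    have : ∑ i, β * x i * (β' * x i) = β * β' * s := by
      rw [hs, Finset.mul_sum]; apply Finset.sum_congr rfl; intro i _; ring
    rw [this, h1]
  · simp only [Mx_zero_zero, Mx_zero_succ, Mx_succ_succ]
    have : ∑ i, β * x i * ((if i = j then α' else 0) + γ' * x i * x j)
        = β * (α' + γ' * s) * x j := by
      simp only [mul_add, Finset.sum_add_distrib]
      have e1 : ∑ i, β * x i * (if i = j then α' else 0) = β * α' * x j := by
        simp only [mul_ite, mul_zero, Finset.sum_ite_eq', Finset.mem_univ, ↓reduceIte]; ring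
      have e2 : ∑ i, β * x i * (γ' * x i * x j) = β * (γ' * s) * x j := by
        rw [hs, Finset.mul_sum, Finset.mul_sum, Finset.sum_mul]
        apply Finset.sum_congr rfl; intro i _; ring
      rw [e1, e2]; ring
    rw [this, Matrix.one_apply_ne (Fin.succ_ne_zero j).symm]
    linear_combination (x j) * h2
  · simp only [Mx_zero_zero, Mx_succ_zero, Mx_succ_succ]
    have : ∑ j, ((if i = j then α else 0) + γ * x i * x j) * (β' * x j)
        = (α + γ * s) * β' * x i := by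
      simp only [add_mul, Finset.sum_add_distrib]
      have e1 : ∑ j, (if i = j then α else 0) * (β' * x j) = α * β' * x i := by
        simp only [ite_mul, zero_mul, Finset.sum_ite_eq, Finset.mem_univ, ↓reduceIte]; ring
      have e2 : ∑ j, γ * x i * x j * (β' * x j) = γ * s * β' * x i := by
        rw [hs, Finset.mul_sum, Finset.sum_mul, Finset.sum_mul]
        apply Finset.sum_congr rfl; intro i _; ring
      rw [e1, e2]
    rw [this, Matrix.one_apply_ne (Fin.succ_ne_zero i)]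
    linear_combination (x i) * h3
  · simp only [Mx_zero_succ, Mx_succ_zero, Mx_succ_succ]
    have : ∑ k, ((if i = k then α else 0) + γ * x i * x k) *
        ((if k = j then α' else 0) + γ' * x k * x j)
        = (if i = j then α * α' else 0) + (α * γ' + γ * α' + γ * γ' * s) * x i * x j := by
      simp only [add_mul, mul_add, Finset.sum_add_distrib]
      have e1 : ∑ k, (if i = k then α else 0) * (if k = j then α' else 0)
          = if i = j then α * α' else 0 := by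
        simp only [mul_ite, ite_mul, zero_mul, mul_zero, Finset.sum_ite_eq', Finset.mem_univ, ↓reduceIte]
      have e2 : ∑ k, (if i = k then α else 0) * (γ' * x k * x j) = α * γ' * x i * x j := by
        simp only [ite_mul, zero_mul, Finset.sum_ite_eq, Finset.mem_univ, ↓reduceIte]; ring
      have e3 : ∑ k, γ * x i * x k * (if k = j then α' else 0) = γ * α' * x i * x j := by
        simp only [mul_ite, mul_zero, Finset.sum_ite_eq', Finset.mem_univ, ↓reduceIte]; ring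
      have e4 : ∑ k, γ * x i * x k * (γ' * x k * x j) = γ * γ' * s * x i * x j := by
        rw [hs, Finset.mul_sum, Finset.sum_mul, Finset.sum_mul]
        apply Finset.sum_congr rfl; intro i _; ring
      rw [e1, e2, e3, e4]; ring
    rw [this]
    by_cases hij : i = j
    · subst hij
      rw [Matrix.one_apply_eq]
      simp only [if_true]
      linear_combination h4 + (x i * x i) * h5
    · rw [Matrix.one_apply_ne (fun h => hij (Fin.succ_injective _ h))]
      simp only [hij, if_false]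
      linear_combination (x i * x j) * h5

lemma Mx_trace (x : Fin p → ℝ) (c β α γ c' β' α' γ' s : ℝ) (hs : s = ∑ i, x i ^ 2) (D : ℝ) :
    ∑ i, ∑ j, (D * Mx x c β α γ i j) * Mx x c' β' α' γ' i j
      = D * (c * c' + 2 * β * β' * s + p * α * α' + (α * γ' + γ * α' + γ * γ' * s) * s) := by
  simp only [Fin.sum_univ_succ, Mx_zero_zero, Mx_zero_succ, Mx_succ_zero, Mx_succ_succ]
  have e1 : ∑ j, D * (β * x j) * (β' * x j) = D * (β * β' * s) := by
    rw [hs, Finset.mul_sum, Finset.mul_sum]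
    apply Finset.sum_congr rfl; intro i _; ring
  have e2 : ∀ i, ∑ j, D * ((if i = j then α else 0) + γ * x i * x j) *
      ((if i = j then α' else 0) + γ' * x i * x j)
      = D * (α * α') + D * (α * γ' + γ * α' + γ * γ' * s) * x i ^ 2 := by
    intro i
    have : ∀ j, D * ((if i = j then α else 0) + γ * x i * x j) *
      ((if i = j then α' else 0) + γ' * x i * x j) =
      (if i = j then D * (α * α' + (α * γ' + γ * α') * x i * x j) else 0)
        + D * γ * γ' * x i ^ 2 * x j ^ 2 := by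
      intro j
      split_ifs <;> ring
    simp only [this, Finset.sum_add_distrib]
    have e3 : ∑ j, D * γ * γ' * x i ^ 2 * x j ^ 2 = D * γ * γ' * x i ^ 2 * s := by
      rw [hs, Finset.mul_sum]
    rw [e3]
    simp only [Finset.sum_ite_eq, Finset.mem_univ, ↓reduceIte]
    ring
  rw [Finset.sum_add_distrib, e1]
  simp only [e2, Finset.sum_add_distrib, ← Finset.mul_sum, ← hs]
  simp only [Finset.sum_const, Finset.card_univ, Fintype.card_fin, nsmul_eq_mul]
  ring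

lemma Mx_posDef (x : Fin p → ℝ) (c β α γ : ℝ) (hα : 0 < α) (hc : 0 < c)
    (hγ : 0 ≤ γ - β ^ 2 / c) : (Mx x c β α γ).PosDef := by
  apply Matrix.PosDef.of_dotProduct_mulVec_pos
  · ext i j
    simp only [Matrix.conjTranspose_apply, star_trivial]
    refine Fin.cases ?_ (fun i => ?_) i <;> refine Fin.cases ?_ (fun j => ?_) j
    · rfl
    · rfl
    · rfl
    · simp only [Mx_succ_succ]
      by_cases h : i = j
      · subst h; rfl
      · have h' : j ≠ i := fun e => h e.symm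
        simp only [h, h', if_false]
        ring
  · intro z hz
    have key : star z ⬝ᵥ (Mx x c β α γ).mulVec z =
        c * (z 0 + β / c * ∑ i, x i * z i.succ) ^ 2 + α * (∑ i : Fin p, z i.succ ^ 2)
          + (γ - β ^ 2 / c) * (∑ i, x i * z i.succ) ^ 2 := by
      simp only [dotProduct, Matrix.mulVec, star_trivial, Fin.sum_univ_succ, Pi.star_apply,
        Mx_zero_zero, Mx_zero_succ, Mx_succ_zero, Mx_succ_succ]
      set T := ∑ i, x i * z i.succ with hT
      have e1 : ∑ j, β * x j * z j.succ = β * T := by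
        rw [hT, Finset.mul_sum]; apply Finset.sum_congr rfl; intro i _; ring
      have e2 : ∀ i, ∑ j, ((if i = j then α else 0) + γ * x i * x j) * z j.succ
          = α * z i.succ + γ * x i * T := by
        intro i
        simp only [add_mul, Finset.sum_add_distrib]
        have : ∑ j, γ * x i * x j * z j.succ = γ * x i * T := by
          rw [hT, Finset.mul_sum]; apply Finset.sum_congr rfl; intro i _; ring
        rw [this]; simp only [ite_mul, zero_mul, Finset.sum_ite_eq, Finset.mem_univ, ↓reduceIte]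
      simp only [e1, e2]
      have e3 : ∑ i : Fin p, z i.succ * (β * x i * z 0 + (α * z i.succ + γ * x i * T))
          = β * z 0 * T + α * (∑ i : Fin p, z i.succ ^ 2) + γ * T * T := by
        conv_rhs => rw [Finset.mul_sum]
        have : ∀ i : Fin p, z i.succ * (β * x i * z 0 + (α * z i.succ + γ * x i * T))
          = (β * z 0 + γ * T) * (x i * z i.succ) + α * z i.succ ^ 2 := by intro i; ring
        simp only [this, Finset.sum_add_distrib, ← Finset.mul_sum, ← hT]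
        ring
      rw [e3]
      field_simp
      ring
    rw [key]
    have hsum : 0 ≤ ∑ i : Fin p, z i.succ ^ 2 := Finset.sum_nonneg fun i _ => sq_nonneg _
    have t3 : 0 ≤ (γ - β ^ 2 / c) * (∑ i, x i * z i.succ) ^ 2 :=
      mul_nonneg hγ (sq_nonneg _)
    by_cases hz' : ∀ i : Fin p, z i.succ = 0
    · have hz0 : z 0 ≠ 0 := by
        intro h0
        apply hz
        funext i
        refine Fin.cases ?_ (fun i => ?_) i
        · exact h0
        · exact hz' i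
      have : 0 < z 0 ^ 2 := by positivity
      simp only [hz', mul_zero, Finset.sum_const_zero, add_zero, ne_eq, OfNat.ofNat_ne_zero, not_false_eq_true, zero_pow, gt_iff_lt]
      (clear * - hc hz0; positivity)
    · push Not at hz'
      obtain ⟨i, hi⟩ := hz'
      have h1 : 0 < ∑ i : Fin p, z i.succ ^ 2 :=
        Finset.sum_pos' (fun i _ => sq_nonneg _) ⟨i, Finset.mem_univ _, by positivity⟩
      have h2 : 0 ≤ c * (z 0 + β / c * ∑ i, x i * z i.succ) ^ 2 := by (clear * - hc; positivity)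
      have h4 := mul_pos hα h1
      linarith only [t3, h2, h4]

end Vale.Agent.P252
end
end

section

section

open scoped ContDiff

namespace Vale.Agent.P252

variable {p : ℕ}

lemma DD.inv {F α β : EuclideanSpace ℝ (Fin (p + 1)) → ℝ} (hF : DD F α β)
    (h0 : ∀ x, F x ≠ 0) :
    DD (fun x => (F x)⁻¹) (fun x => -α x / F x ^ 2) (fun x => -β x / F x ^ 2) := by
  have h := DD.comp hF (φ := fun t => t⁻¹) (d := fun x => -(F x ^ 2)⁻¹)
    (fun x => hasDerivAt_inv (h0 x))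
  refine h.congr (fun x => ?_) (fun x => ?_) <;> (have := h0 x; field_simp)

lemma DD.pow {F α β : EuclideanSpace ℝ (Fin (p + 1)) → ℝ} (hF : DD F α β) (n : ℕ) :
    DD (fun x => F x ^ n) (fun x => (n : ℝ) * F x ^ (n - 1) * α x)
      (fun x => (n : ℝ) * F x ^ (n - 1) * β x) :=
  DD.comp hF (φ := fun t => t ^ n) (d := fun x => (n : ℝ) * F x ^ (n - 1))
    (fun x => hasDerivAt_pow n (F x))

section data

variable (D : OdeData p)

/-- `h = η(ρ)` -/
noncomputable def hh (x : EuclideanSpace ℝ (Fin (p + 1))) : ℝ := D.η (rho x)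
/-- `a(ρ)` -/
noncomputable def aa (x : EuclideanSpace ℝ (Fin (p + 1))) : ℝ := D.a (rho x)
/-- `b(ρ)` -/
noncomputable def bb (x : EuclideanSpace ℝ (Fin (p + 1))) : ℝ := D.b (rho x)
/-- `b'(ρ)` -/
noncomputable def bb' (x : EuclideanSpace ℝ (Fin (p + 1))) : ℝ := D.b' (rho x)

/-- the solution `u = √(y² + h²)` -/
noncomputable def uu (x : EuclideanSpace ℝ (Fin (p + 1))) : ℝ :=
  Real.sqrt ((x 0) ^ 2 + hh D x ^ 2)

lemma rho_gt (x : EuclideanSpace ℝ (Fin (p + 1))) : -D.ε < rho x := by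
  have := rho_nonneg x
  have := D.ε_pos
  linarith

lemma hh_pos (x : EuclideanSpace ℝ (Fin (p + 1))) : 0 < hh D x := D.η_pos _ (rho_gt D x)
lemma aa_pos (x : EuclideanSpace ℝ (Fin (p + 1))) : 0 < aa D x := D.a_pos _ (rho_gt D x)
lemma bb_pos (x : EuclideanSpace ℝ (Fin (p + 1))) : 0 < bb D x := D.b_pos _ (rho_gt D x)

lemma uu_sq (x : EuclideanSpace ℝ (Fin (p + 1))) : uu D x ^ 2 = (x 0) ^ 2 + hh D x ^ 2 := by
  unfold uu
  rw [Real.sq_sqrt]
  positivity

lemma uu_pos (x : EuclideanSpace ℝ (Fin (p + 1))) : 0 < uu D x := by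
  unfold uu
  apply Real.sqrt_pos.mpr
  have := hh_pos D x
  positivity

lemma DD_hh : DD (hh D) (fun _ => 0) (fun x => aa D x * hh D x) := by
  have h := DD.comp (DD.rho (p := p)) (φ := D.η) (d := fun x => aa D x * hh D x)
    (fun x => D.hη _ (rho_gt D x))
  exact h.congr (fun x => by simp) (fun x => by simp)

lemma DD_aa : DD (aa D) (fun _ => 0) (fun x => aa D x * (bb D x - aa D x)) := by
  have h := DD.comp (DD.rho (p := p)) (φ := D.a) (d := fun x => aa D x * (bb D x - aa D x))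
    (fun x => D.ha _ (rho_gt D x))
  exact h.congr (fun x => by simp) (fun x => by simp)

lemma DD_bb : DD (bb D) (fun _ => 0) (fun x => bb' D x) := by
  have h := DD.comp (DD.rho (p := p)) (φ := D.b) (d := fun x => bb' D x)
    (fun x => D.hb _ (rho_gt D x))
  exact h.congr (fun x => by simp) (fun x => by simp)

lemma DD_uu : DD (uu D) (fun x => x 0 / uu D x) (fun x => aa D x * hh D x ^ 2 / uu D x) := by
  have h1 := (DD.y (p := p)).pow 2
  have h2 := (DD_hh D).pow 2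
  have h3 := h1.add h2
  have h4 := DD.comp h3 (φ := Real.sqrt)
    (d := fun x => 1 / (2 * Real.sqrt ((x 0) ^ 2 + hh D x ^ 2)))
    (fun x => Real.hasDerivAt_sqrt (by have := hh_pos D x; positivity))
  refine h4.congr (fun x => ?_) (fun x => ?_)
  · change 1 / (2 * uu D x) * _ = _
    have := uu_pos D x
    field_simp
    simp
  · change 1 / (2 * uu D x) * _ = _
    have := uu_pos D x
    field_simp
    simp only [Nat.cast_ofNat, Nat.add_one_sub_one, pow_one, mul_zero, zero_add]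
    ring

lemma DD_uu_α : DD (fun x => x 0 / uu D x) (fun x => hh D x ^ 2 / uu D x ^ 3)
    (fun x => -(x 0 * aa D x * hh D x ^ 2 / uu D x ^ 3)) := by
  have h1 := (DD.y (p := p)).mul ((DD_uu D).inv (fun x => (uu_pos D x).ne'))
  refine DD.congr (F := fun x => x 0 / uu D x) (by simpa only [div_eq_mul_inv] using h1)
    (fun x => ?_) (fun x => ?_)
  · have := uu_pos D x
    have h2 := uu_sq D x
    field_simp
    rw [h2]; ring
  · have := uu_pos D x
    field_simp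
    ring

lemma DD_uu_β : DD (fun x => aa D x * hh D x ^ 2 / uu D x)
    (fun x => -(x 0 * aa D x * hh D x ^ 2 / uu D x ^ 3))
    (fun x => aa D x * bb D x * hh D x ^ 2 / uu D x
      + (aa D x) ^ 2 * hh D x ^ 2 * (x 0) ^ 2 / uu D x ^ 3) := by
  have h1 := (((DD_aa D).mul ((DD_hh D).pow 2))).mul
    ((DD_uu D).inv (fun x => (uu_pos D x).ne'))
  refine DD.congr (F := fun x => aa D x * hh D x ^ 2 / uu D x)
    (by simpa only [div_eq_mul_inv] using h1) (fun x => ?_) (fun x => ?_)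
  · have := uu_pos D x
    field_simp
    ring
  · have := uu_pos D x
    have h2 := uu_sq D x
    have h3 : (x 0) ^ 2 = uu D x ^ 2 - hh D x ^ 2 := by rw [h2]; ring
    rw [h3]
    field_simp
    simp only [Nat.cast_ofNat, Nat.add_one_sub_one, pow_one]
    ring

lemma hess_uu (x : EuclideanSpace ℝ (Fin (p + 1))) :
    hess (uu D) x = Mx (fun i => x i.succ) (hh D x ^ 2 / uu D x ^ 3)
      (-(x 0 * aa D x * hh D x ^ 2 / uu D x ^ 3)) (aa D x * hh D x ^ 2 / uu D x)
      (aa D x * bb D x * hh D x ^ 2 / uu D x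
      + (aa D x) ^ 2 * hh D x ^ 2 * (x 0) ^ 2 / uu D x ^ 3) :=
  hess_of_DD (DD_uu D) (DD_uu_α D) (DD_uu_β D) x

lemma sum_sq_eq (x : EuclideanSpace ℝ (Fin (p + 1))) :
    2 * rho x = ∑ i : Fin p, (x i.succ) ^ 2 := by
  unfold rho; ring

lemma schur_uu (x : EuclideanSpace ℝ (Fin (p + 1))) :
    (aa D x * bb D x * hh D x ^ 2 / uu D x
      + (aa D x) ^ 2 * hh D x ^ 2 * (x 0) ^ 2 / uu D x ^ 3)
      - (-(x 0 * aa D x * hh D x ^ 2 / uu D x ^ 3)) ^ 2 / (hh D x ^ 2 / uu D x ^ 3)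
      = aa D x * bb D x * hh D x ^ 2 / uu D x := by
  have := uu_pos D x
  have := hh_pos D x
  field_simp
  ring

lemma posDef_uu (x : EuclideanSpace ℝ (Fin (p + 1))) : (hess (uu D) x).PosDef := by
  rw [hess_uu]
  have h1 := uu_pos D x
  have h2 := hh_pos D x
  have h3 := aa_pos D x
  have h4 := bb_pos D x
  apply Mx_posDef
  · positivity
  · positivity
  · rw [schur_uu]
    positivity

/-- the radial factor of the determinant -/
noncomputable def GG (x : EuclideanSpace ℝ (Fin (p + 1))) : ℝ :=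
  aa D x ^ p * hh D x ^ (2 * p + 2) * (1 + 2 * rho x * bb D x)

lemma pos1' (x : EuclideanSpace ℝ (Fin (p + 1))) : 0 < 1 + 2 * rho x * bb D x :=
  D.pos1 _ (rho_gt D x)

lemma pos2' (x : EuclideanSpace ℝ (Fin (p + 1))) : 0 < p + 4 * rho x * aa D x :=
  D.pos2 _ (rho_gt D x)

lemma GG_pos (x : EuclideanSpace ℝ (Fin (p + 1))) : 0 < GG D x := by
  unfold GG
  have h2 := hh_pos D x
  have h3 := aa_pos D x
  have h4 := pos1' D x
  positivity

lemma det_uu (x : EuclideanSpace ℝ (Fin (p + 1))) :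
    (hess (uu D) x).det = GG D x * (uu D x ^ (p + 3))⁻¹ := by
  have h1 := uu_pos D x
  have h2 := hh_pos D x
  have h3 := aa_pos D x
  rw [hess_uu, det_Mx _ _ _ _ _ (by positivity) (by positivity), schur_uu]
  have e : aa D x * bb D x * hh D x ^ 2 / uu D x / (aa D x * hh D x ^ 2 / uu D x)
      = bb D x := by
    field_simp
  rw [e, ← sum_sq_eq]
  unfold GG
  rw [div_pow, mul_pow]
  field_simp
  ring

/-- the exponent `θ = (p+2)/(p+3)` -/
noncomputable def th (p : ℕ) : ℝ := ((p : ℝ) + 2) / ((p : ℝ) + 3)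

/-- `K = G^(-θ)` -/
noncomputable def KK (x : EuclideanSpace ℝ (Fin (p + 1))) : ℝ := GG D x ^ (-th p)

lemma wfun_uu : wfun (uu D) = fun x => uu D x ^ (p + 2) * KK D x := by
  funext x
  have h1 := uu_pos D x
  have h2 := GG_pos D x
  unfold wfun KK
  rw [det_uu]
  have e : (-(((p + 1 : ℕ) : ℝ) + 1) / (((p + 1 : ℕ) : ℝ) + 2)) = -th p := by
    unfold th
    push_cast
    rw [show ((p : ℝ) + 1 + 1) = p + 2 by ring, show ((p : ℝ) + 1 + 2) = p + 3 by ring]
    ring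
  rw [e, Real.mul_rpow h2.le (by positivity), mul_comm]
  congr 1
  rw [Real.inv_rpow (by positivity), Real.rpow_neg (by positivity), inv_inv,
    ← Real.rpow_natCast, ← Real.rpow_mul h1.le, ← Real.rpow_natCast]
  congr 1
  unfold th
  push_cast
  have : (p : ℝ) + 3 ≠ 0 := by positivity
  field_simp

/-- logarithmic derivative of `K` -/
noncomputable def kk (x : EuclideanSpace ℝ (Fin (p + 1))) : ℝ :=
  -((p : ℝ) + 2) * (((p : ℝ) + 1) * aa D x + 4 * rho x * aa D x ^ 2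
    + 4 * rho x * aa D x * bb D x) / (p + 4 * rho x * aa D x)

lemma heq' (x : EuclideanSpace ℝ (Fin (p + 1))) :
    (p + 4 * rho x * aa D x) * (2 * rho x * bb' D x + 2 * bb D x)
      = (1 + 2 * rho x * bb D x) * ((2 * p + 3) * aa D x - (p : ℝ) ^ 2 * bb D x
        + 4 * rho x * (aa D x) ^ 2 + 12 * rho x * aa D x * bb D x) :=
  D.heq _ (rho_gt D x)

lemma DD_GG (hp : 1 ≤ p) : DD (GG D) (fun _ => 0) (fun x => GG D x *
    ((p : ℝ) * (bb D x - aa D x) + (2 * p + 2) * aa D x +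
      (2 * rho x * bb' D x + 2 * bb D x) / (1 + 2 * rho x * bb D x))) := by
  have h1 := ((DD_aa D).pow p).mul ((DD_hh D).pow (2 * p + 2))
  have h2 := (DD.const (p := p) 1).add (((DD.const (p := p) 2).mul DD.rho).mul (DD_bb D))
  have h3 := h1.mul h2
  refine DD.congr (F := GG D) h3 (fun x => ?_) (fun x => ?_)
  · simp only [mul_zero, add_zero, Nat.cast_add, Nat.cast_mul, Nat.cast_ofNat, Nat.add_one_sub_one]
  · have e1 := pos1' D x
    have e2 := aa_pos D x
    have e3 := hh_pos D x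
    obtain ⟨q, rfl⟩ : ∃ q, p = q + 1 := ⟨p - 1, by omega⟩
    unfold GG
    simp only [Nat.add_sub_cancel, show 2 * (q + 1) + 2 - 1 = 2 * q + 3 by omega]
    field_simp
    push_cast
    ring

lemma DD_KK (hp : 1 ≤ p) : DD (KK D) (fun _ => 0) (fun x => KK D x * kk D x) := by
  have h := DD.comp (DD_GG D hp) (φ := fun t => t ^ (-th p))
    (d := fun x => (-th p) * GG D x ^ (-th p - 1))
    (fun x => by
      have := Real.hasDerivAt_rpow_const (x := GG D x) (p := -th p) (Or.inl (GG_pos D x).ne')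
      simpa using this)
  refine DD.congr (F := KK D) h (fun x => by simp) (fun x => ?_)
  have e1 := pos1' D x
  have e2 := pos2' D x
  have e3 := GG_pos D x
  have e4 := heq' D x
  rw [Real.rpow_sub_one e3.ne']
  change -th p * (KK D x / GG D x) * _ = _
  have e5 : (2 * rho x * bb' D x + 2 * bb D x) / (1 + 2 * rho x * bb D x)
      = ((2 * p + 3) * aa D x - (p : ℝ) ^ 2 * bb D x
        + 4 * rho x * (aa D x) ^ 2 + 12 * rho x * aa D x * bb D x)
          / (p + 4 * rho x * aa D x) := by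
    rw [div_eq_div_iff e1.ne' e2.ne']
    linear_combination e4
  have e6 : (p : ℝ) * (bb D x - aa D x) + (2 * p + 2) * aa D x +
      (2 * rho x * bb' D x + 2 * bb D x) / (1 + 2 * rho x * bb D x) = ((p : ℝ) + 3) *
      (((p : ℝ) + 1) * aa D x + 4 * rho x * aa D x ^ 2
        + 4 * rho x * aa D x * bb D x) / (p + 4 * rho x * aa D x) := by
    rw [e5, eq_div_iff e2.ne', add_mul, div_mul_cancel₀ _ e2.ne']
    ring
  rw [e6]
  have e7 : kk D x = -th p * (((p : ℝ) + 3) * (((p : ℝ) + 1) * aa D x + 4 * rho x * aa D x ^ 2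
        + 4 * rho x * aa D x * bb D x) / (p + 4 * rho x * aa D x)) := by
    unfold kk th
    have : (p : ℝ) + 3 ≠ 0 := by positivity
    rw [mul_div_assoc, mul_div_assoc]
    (clear * - this hp; field_simp)
  rw [e7]
  have e8 := e3.ne'
  (clear * - e8 hp; field_simp)

/-- derivative of `kk` -/
noncomputable def kk' (x : EuclideanSpace ℝ (Fin (p + 1))) : ℝ :=
  -((p : ℝ) + 2) * (((((p : ℝ) + 1) * (aa D x * (bb D x - aa D x)) + 4 * aa D x ^ 2
      + 8 * rho x * aa D x * (aa D x * (bb D x - aa D x)) + 4 * aa D x * bb D x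
      + 4 * rho x * (aa D x * (bb D x - aa D x)) * bb D x + 4 * rho x * aa D x * bb' D x)
      * (p + 4 * rho x * aa D x)
    - (((p : ℝ) + 1) * aa D x + 4 * rho x * aa D x ^ 2 + 4 * rho x * aa D x * bb D x)
      * (4 * aa D x + 4 * rho x * (aa D x * (bb D x - aa D x))))
      / (p + 4 * rho x * aa D x) ^ 2)

lemma DD_kk : DD (kk D) (fun _ => 0) (kk' D) := by
  have hn := (((DD.const (p := p) ((p : ℝ) + 1)).mul (DD_aa D)).add
    (((DD.const (p := p) 4).mul DD.rho).mul ((DD_aa D).pow 2))).add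
    ((((DD.const (p := p) 4).mul DD.rho).mul (DD_aa D)).mul (DD_bb D))
  have hd := (DD.const (p := p) (p : ℝ)).add (((DD.const (p := p) 4).mul DD.rho).mul (DD_aa D))
  have h := ((DD.const (p := p) (-((p : ℝ) + 2))).mul hn).mul
    (hd.inv (fun x => (pos2' D x).ne'))
  have hF : kk D = fun x => -((p : ℝ) + 2) * (((p : ℝ) + 1) * aa D x + 4 * rho x * aa D x ^ 2
    + 4 * rho x * aa D x * bb D x) * (p + 4 * rho x * aa D x)⁻¹ := by
    funext x; unfold kk; rw [div_eq_mul_inv]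
  rw [hF]
  refine h.congr (fun x => ?_) (fun x => ?_)
  · simp only [neg_add_rev, mul_zero, add_zero, neg_zero, zero_div, Nat.cast_ofNat, Nat.add_one_sub_one, pow_one]
  · have e2' := (pos2' D x).ne'
    unfold kk'
    field_simp
    simp only [mul_zero, add_zero, zero_add, Nat.cast_ofNat, Nat.add_one_sub_one, pow_one, mul_neg]
    ring

/-- `Z = u^p K` -/
noncomputable def ZZ (x : EuclideanSpace ℝ (Fin (p + 1))) : ℝ := uu D x ^ p * KK D x

lemma DD_ZZ (hp : 1 ≤ p) : DD (ZZ D) (fun x => p * x 0 / uu D x ^ 2 * ZZ D x)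
    (fun x => ZZ D x * (p * aa D x * hh D x ^ 2 / uu D x ^ 2 + kk D x)) := by
  have h := ((DD_uu D).pow p).mul (DD_KK D hp)
  refine DD.congr (F := ZZ D) h (fun x => ?_) (fun x => ?_)
  · have h1 := uu_pos D x
    obtain ⟨q, rfl⟩ : ∃ q, p = q + 1 := ⟨p - 1, by omega⟩
    unfold ZZ
    simp only [Nat.add_sub_cancel]
    field_simp
    ring
  · have h1 := uu_pos D x
    obtain ⟨q, rfl⟩ : ∃ q, p = q + 1 := ⟨p - 1, by omega⟩
    unfold ZZ
    simp only [Nat.add_sub_cancel]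
    field_simp
    ring

lemma DD_w (hp : 1 ≤ p) : DD (fun x => uu D x ^ (p + 2) * KK D x)
    (fun x => ((p : ℝ) + 2) * x 0 * ZZ D x)
    (fun x => ZZ D x * (((p : ℝ) + 2) * aa D x * hh D x ^ 2 + uu D x ^ 2 * kk D x)) := by
  have h := ((DD_uu D).pow (p + 2)).mul (DD_KK D hp)
  refine DD.congr (F := fun x => uu D x ^ (p + 2) * KK D x) h (fun x => ?_) (fun x => ?_)
  · have h1 := uu_pos D x
    unfold ZZ
    simp only [show p + 2 - 1 = p + 1 by omega]
    push_cast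
    field_simp
    ring
  · have h1 := uu_pos D x
    unfold ZZ
    simp only [show p + 2 - 1 = p + 1 by omega]
    push_cast
    field_simp
    ring

/-- `w_{yρ}` -/
noncomputable def w3 (x : EuclideanSpace ℝ (Fin (p + 1))) : ℝ :=
  ((p : ℝ) + 2) * x 0 * ZZ D x * (p * aa D x * hh D x ^ 2 / uu D x ^ 2 + kk D x)

/-- `w_{yy}` -/
noncomputable def w4 (x : EuclideanSpace ℝ (Fin (p + 1))) : ℝ :=
  ((p : ℝ) + 2) * ZZ D x * (1 + p * x 0 ^ 2 / uu D x ^ 2)

/-- `w_ρ` -/
noncomputable def w1 (x : EuclideanSpace ℝ (Fin (p + 1))) : ℝ :=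
  ZZ D x * (((p : ℝ) + 2) * aa D x * hh D x ^ 2 + uu D x ^ 2 * kk D x)

/-- `w_{ρρ}` -/
noncomputable def w2 (x : EuclideanSpace ℝ (Fin (p + 1))) : ℝ :=
  ZZ D x * ((p * aa D x * hh D x ^ 2 / uu D x ^ 2 + kk D x) *
      (((p : ℝ) + 2) * aa D x * hh D x ^ 2 + uu D x ^ 2 * kk D x)
    + ((p : ℝ) + 2) * (aa D x * bb D x + aa D x ^ 2) * hh D x ^ 2
    + 2 * aa D x * hh D x ^ 2 * kk D x + uu D x ^ 2 * kk' D x)

lemma DD_w_α (hp : 1 ≤ p) : DD (fun x => ((p : ℝ) + 2) * x 0 * ZZ D x) (w4 D) (w3 D) := by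
  have h := ((DD.const (p := p) ((p : ℝ) + 2)).mul DD.y).mul (DD_ZZ D hp)
  refine DD.congr (F := fun x => ((p : ℝ) + 2) * x 0 * ZZ D x) h (fun x => ?_) (fun x => ?_)
  · have h1 := uu_pos D x
    unfold w4
    field_simp
    ring
  · unfold w3
    ring

lemma DD_w_β (hp : 1 ≤ p) : DD (w1 D) (w3 D) (w2 D) := by
  have h := (DD_ZZ D hp).mul ((((DD.const (p := p) ((p : ℝ) + 2)).mul (DD_aa D)).mul
    ((DD_hh D).pow 2)).add (((DD_uu D).pow 2).mul (DD_kk D)))
  refine DD.congr (F := w1 D) h (fun x => ?_) (fun x => ?_)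
  · have h1 := uu_pos D x
    unfold w3
    field_simp
    simp only [Nat.cast_ofNat, Nat.add_one_sub_one, pow_one, zero_mul, zero_add]
    ring
  · have h1 := uu_pos D x
    unfold w2
    simp only [show 2 - 1 = 1 from rfl, pow_one, Nat.cast_ofNat]
    field_simp
    ring

lemma hess_w (hp : 1 ≤ p) (x : EuclideanSpace ℝ (Fin (p + 1))) :
    hess (wfun (uu D)) x = Mx (fun i => x i.succ) (w4 D x) (w3 D x) (w1 D x) (w2 D x) := by
  rw [wfun_uu]
  exact hess_of_DD (DD_w D hp) (DD_w_α D hp) (DD_w_β D hp) x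

end data

end Vale.Agent.P252
end
end

section

section

open scoped ContDiff

namespace Vale.Agent.P252

variable {p : ℕ}

/-- the radial ODE identity in terms of `k`, `k'` -/
lemma ode_identity (P r A B B' : ℝ) (h2 : P + 4 * r * A ≠ 0)
    (heq : (P + 4 * r * A) * (2 * r * B' + 2 * B)
      = (1 + 2 * r * B) * ((2 * P + 3) * A - P ^ 2 * B + 4 * r * A ^ 2 + 12 * r * A * B)) (k k' : ℝ)
    (hk : k = -(P + 2) * ((P + 1) * A + 4 * r * A ^ 2
    + 4 * r * A * B) / (P + 4 * r * A))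
    (hk' : k' = -(P + 2) * ((((P + 1) * (A * (B - A)) + 4 * A ^ 2
      + 8 * r * A * (A * (B - A)) + 4 * A * B
      + 4 * r * (A * (B - A)) * B + 4 * r * A * B')
      * (P + 4 * r * A)
    - ((P + 1) * A + 4 * r * A ^ 2 + 4 * r * A * B)
      * (4 * A + 4 * r * (A * (B - A))))
      / (P + 4 * r * A) ^ 2)) :
    (P - 1) * (1 + B * (2 * r)) * (k + (P + 2) * A) + (k + (P + 2) * A)
      + 2 * r * (k' + (P + 2) * A * (B - A) + (k + (P + 2) * A) ^ 2)
      + (P + 2) * A * (1 + B * (2 * r)) = 0 := by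
  set d := P + 4 * r * A with hd
  have e1 : k * d = -(P + 2) * ((P + 1) * A + 4 * r * A ^ 2 + 4 * r * A * B) := by
    rw [hk, div_mul_cancel₀ _ h2]
  have e2 : k' * d ^ 2 = -(P + 2) * (((P + 1) * (A * (B - A)) + 4 * A ^ 2
      + 8 * r * A * (A * (B - A)) + 4 * A * B
      + 4 * r * (A * (B - A)) * B + 4 * r * A * B') * d
    - ((P + 1) * A + 4 * r * A ^ 2 + 4 * r * A * B)
      * (4 * A + 4 * r * (A * (B - A)))) := by
    rw [hk', mul_assoc, div_mul_cancel₀ _ (pow_ne_zero 2 h2)]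
  have e3 : ((P - 1) * (1 + B * (2 * r)) * (k + (P + 2) * A) + (k + (P + 2) * A)
      + 2 * r * (k' + (P + 2) * A * (B - A) + (k + (P + 2) * A) ^ 2)
      + (P + 2) * A * (1 + B * (2 * r))) * d ^ 2 =
      (P - 1) * (1 + B * (2 * r)) * (k * d + (P + 2) * A * d) * d
        + (k * d + (P + 2) * A * d) * d
      + 2 * r * (k' * d ^ 2 + (P + 2) * A * (B - A) * d ^ 2 + (k * d + (P + 2) * A * d) ^ 2)
      + (P + 2) * A * (1 + B * (2 * r)) * d ^ 2 := by ring
  have e4 : ((P - 1) * (1 + B * (2 * r)) * (k + (P + 2) * A) + (k + (P + 2) * A)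
      + 2 * r * (k' + (P + 2) * A * (B - A) + (k + (P + 2) * A) ^ 2)
      + (P + 2) * A * (1 + B * (2 * r))) * d ^ 2 = 0 := by
    rw [e3, e1, e2]
    have e5 : (2 * r * B' + 2 * B) * d = (1 + 2 * r * B) * ((2 * P + 3) * A - P ^ 2 * B
      + 4 * r * A ^ 2 + 12 * r * A * B) := by rw [← heq]; ring
    rw [hd] at e5 ⊢
    linear_combination (-(P + 2) * 4 * r * A) * e5
  rcases mul_eq_zero.mp e4 with h | h
  · exact h
  · exact absurd h (pow_ne_zero 2 h2)

/-- the algebraic identity reducing (AM) to the ODE -/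
lemma am_identity (P r A B U h y Z k k' : ℝ) (hU : U ≠ 0) (hU2 : U ^ 2 = y ^ 2 + h ^ 2) :
    A * (U ^ 2 * (1 + B * (2 * r)) + A * y ^ 2 * (2 * r)) *
        ((P + 2) * Z * (1 + P * y ^ 2 / U ^ 2))
      + 2 * A * y * (2 * r) * ((P + 2) * y * Z * (P * A * h ^ 2 / U ^ 2 + k))
      + (P - 1) * (1 + B * (2 * r)) * (Z * ((P + 2) * A * h ^ 2 + U ^ 2 * k))
      + (Z * ((P + 2) * A * h ^ 2 + U ^ 2 * k) + (2 * r) *
        (Z * ((P * A * h ^ 2 / U ^ 2 + k) * ((P + 2) * A * h ^ 2 + U ^ 2 * k)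
          + (P + 2) * (A * B + A ^ 2) * h ^ 2 + 2 * A * h ^ 2 * k + U ^ 2 * k')))
      = Z * U ^ 2 * ((P - 1) * (1 + B * (2 * r)) * (k + (P + 2) * A) + (k + (P + 2) * A)
      + 2 * r * (k' + (P + 2) * A * (B - A) + (k + (P + 2) * A) ^ 2)
      + (P + 2) * A * (1 + B * (2 * r))) := by
  have hh : h ^ 2 = U ^ 2 - y ^ 2 := by rw [hU2]; ring
  rw [hh]
  field_simp
  ring

section data

variable (D : OdeData p)

lemma inv_uu (x : EuclideanSpace ℝ (Fin (p + 1))) :
    (hess (uu D) x)⁻¹ = Mx (fun i => x i.succ)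
      (uu D x ^ 3 / hh D x ^ 2 + aa D x * (x 0) ^ 2 * (2 * rho x) * uu D x /
        (hh D x ^ 2 * (1 + 2 * rho x * bb D x)))
      (x 0 * uu D x / (hh D x ^ 2 * (1 + 2 * rho x * bb D x)))
      (uu D x / (aa D x * hh D x ^ 2))
      (-(bb D x * uu D x / (aa D x * hh D x ^ 2 * (1 + 2 * rho x * bb D x)))) := by
  apply Matrix.inv_eq_right_inv
  rw [hess_uu]
  have h1 := uu_pos D x
  have h2 := hh_pos D x
  have h3 := aa_pos D x
  have h4 := (pos1' D x).ne'
  apply Mx_mul_inv _ _ _ _ _ _ _ _ _ (2 * rho x) (sum_sq_eq x)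
  · field_simp
    ring
  · field_simp
    ring
  · field_simp
    ring
  · field_simp
  · field_simp
    ring

lemma am_uu (hp : 1 ≤ p) (x : EuclideanSpace ℝ (Fin (p + 1))) :
    ∑ i, ∑ j, ((hess (uu D) x).det * (hess (uu D) x)⁻¹ i j) *
      pd i (pd j (wfun (uu D))) x = 0 := by
  have e0 : ∀ i j, pd i (pd j (wfun (uu D))) x = hess (wfun (uu D)) x i j := fun i j => rfl
  simp only [e0, inv_uu, hess_w D hp x]
  rw [Mx_trace _ _ _ _ _ _ _ _ _ (2 * rho x) (sum_sq_eq x)]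
  have h1 := uu_pos D x
  have h2 := hh_pos D x
  have h3 := aa_pos D x
  have h4 := pos1' D x
  have h5 := am_identity (p : ℝ) (rho x) (aa D x) (bb D x) (uu D x) (hh D x) (x 0) (ZZ D x)
    (kk D x) (kk' D x) h1.ne' (uu_sq D x)
  have h6 := ode_identity (p : ℝ) (rho x) (aa D x) (bb D x) (bb' D x) (pos2' D x).ne'
    (heq' D x) (kk D x) (kk' D x) rfl (by unfold kk'; ring)
  rw [h6, mul_zero] at h5
  apply mul_eq_zero_of_right
  have h7 : (uu D x / (aa D x * hh D x ^ 2 * (1 + 2 * rho x * bb D x))) * 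
    (aa D x * (uu D x ^ 2 * (1 + bb D x * (2 * rho x)) + aa D x * x 0 ^ 2 * (2 * rho x)) *
        (((p : ℝ) + 2) * ZZ D x * (1 + p * x 0 ^ 2 / uu D x ^ 2))
      + 2 * aa D x * x 0 * (2 * rho x) * (((p : ℝ) + 2) * x 0 * ZZ D x *
        (p * aa D x * hh D x ^ 2 / uu D x ^ 2 + kk D x))
      + ((p : ℝ) - 1) * (1 + bb D x * (2 * rho x)) * (ZZ D x * (((p : ℝ) + 2) * aa D x
        * hh D x ^ 2 + uu D x ^ 2 * kk D x))
      + (ZZ D x * (((p : ℝ) + 2) * aa D x * hh D x ^ 2 + uu D x ^ 2 * kk D x) + (2 * rho x) *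
        (ZZ D x * ((p * aa D x * hh D x ^ 2 / uu D x ^ 2 + kk D x) *
          (((p : ℝ) + 2) * aa D x * hh D x ^ 2 + uu D x ^ 2 * kk D x)
          + ((p : ℝ) + 2) * (aa D x * bb D x + aa D x ^ 2) * hh D x ^ 2
          + 2 * aa D x * hh D x ^ 2 * kk D x + uu D x ^ 2 * kk' D x)))) = 0 := by
    rw [h5, mul_zero]
  rw [← h7]
  change (_ * w4 D x + _ * w3 D x * _ + _ * w1 D x + _ * _) = _ * (_ * w4 D x + 2 * aa D x * x 0 * (2 * rho x) * w3 D x +
    _ * w1 D x + (w1 D x + (2 * rho x) * w2 D x))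
  have h8 := h4.ne'
  field_simp
  ring

lemma contDiff_rho : ContDiff ℝ ∞ (rho : EuclideanSpace ℝ (Fin (p + 1)) → ℝ) := by
  unfold rho
  apply ContDiff.div_const
  apply ContDiff.sum
  intro i _
  apply ContDiff.pow
  exact (EuclideanSpace.proj (i.succ : Fin (p + 1)) :
    EuclideanSpace ℝ (Fin (p + 1)) →L[ℝ] ℝ).contDiff

lemma contDiff_hh : ContDiff ℝ ∞ (hh D) := by
  rw [contDiff_iff_contDiffAt]
  intro x
  exact (D.η_smooth _ (rho_gt D x)).comp x contDiff_rho.contDiffAt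

lemma contDiff_uu : ContDiff ℝ ∞ (uu D) := by
  unfold uu
  apply ContDiff.sqrt
  · apply ContDiff.add
    · apply ContDiff.pow
      exact (EuclideanSpace.proj (0 : Fin (p + 1)) :
        EuclideanSpace ℝ (Fin (p + 1)) →L[ℝ] ℝ).contDiff
    · exact (contDiff_hh D).pow 2
  · intro x
    have := hh_pos D x
    positivity

lemma uu_axis (t : ℝ) : uu D (EuclideanSpace.single 0 t) = Real.sqrt (t ^ 2 + D.η 0 ^ 2) := by
  unfold uu hh rho
  simp only [PiLp.single_eq_same, ne_eq, Fin.succ_ne_zero, not_false_eq_true, PiLp.single_eq_of_ne, OfNat.ofNat_ne_zero, zero_pow, Finset.sum_const_zero, zero_div]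

lemma not_quadratic_uu : ¬ IsQuadratic (uu D) := by
  rintro ⟨A, b, c, h⟩
  have key : ∀ t : ℝ, Real.sqrt (t ^ 2 + D.η 0 ^ 2) = A 0 0 * t * t / 2 + b 0 * t + c := by
    intro t
    rw [← uu_axis D t, h]
    simp only [PiLp.single_apply, mul_ite, mul_zero, ite_mul, zero_mul, Finset.sum_ite_eq', Finset.mem_univ, ↓reduceIte]
  have hη : 0 < D.η 0 := D.η_pos 0 (by have := D.ε_pos; linarith only [this])
  set e := D.η 0 with he
  have k0 := key 0
  have k1 := key e
  have k2 := key (-e)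
  have k3 := key (2 * e)
  have k4 := key (-(2 * e))
  have s0 : Real.sqrt ((0 : ℝ) ^ 2 + e ^ 2) = e := by
    rw [show (0 : ℝ) ^ 2 + e ^ 2 = e ^ 2 by ring]
    exact Real.sqrt_sq hη.le
  rw [s0] at k0
  rw [neg_sq] at k2 k4
  have q1 : Real.sqrt (e ^ 2 + e ^ 2) ^ 2 = e ^ 2 + e ^ 2 := Real.sq_sqrt (by positivity)
  have q3 : Real.sqrt ((2 * e) ^ 2 + e ^ 2) ^ 2 = (2 * e) ^ 2 + e ^ 2 :=
    Real.sq_sqrt (by positivity)
  have hb : b 0 * e = 0 := by linarith only [k1, k2]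
  have hc : c = e := by linarith only [k0]
  have r1 : Real.sqrt (e ^ 2 + e ^ 2) = A 0 0 * e * e / 2 + e := by rw [k1, hc]; linarith only [k1, k2]
  have r3 : Real.sqrt ((2 * e) ^ 2 + e ^ 2) = 4 * (A 0 0 * e * e / 2) + e := by
    rw [k3, hc]; linarith only [k1, k2]
  set m := A 0 0 * e * e / 2 with hm
  rw [r1] at q1
  rw [r3] at q3
  have t1 : m ^ 2 + 2 * m * e = e ^ 2 := by linarith only [q1]
  have t2 : 4 * m ^ 2 + 2 * m * e = e ^ 2 := by linarith only [q3]
  have t3 : m ^ 2 = 0 := by linarith only [q3, q1]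
  have t4 : m = 0 := by simpa using t3
  rw [t4] at t1
  have : e ^ 2 = 0 := by linarith only [t1]
  have : e = 0 := by simpa using this
  linarith only [hη, this]

end data

theorem pde_of_odeData (p : ℕ) (hp : 2 ≤ p) (D : OdeData p) :
    ∃ u : EuclideanSpace ℝ (Fin (p + 1)) → ℝ, ContDiff ℝ ∞ u ∧ (∀ x, (hess u x).PosDef) ∧
      AffineMaximalOn Set.univ u ∧ ¬ IsQuadratic u :=
  ⟨uu D, contDiff_uu D, posDef_uu D, fun x _ => am_uu D (by omega) x, not_quadratic_uu D⟩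

end Vale.Agent.P252
end
end

section

section

open scoped ContDiff Topology
open Filter

namespace Vale.Agent.P252

variable {p : ℕ} (D : OdeData p)

lemma a_le_a0 (hb : ∀ ρ, -D.ε < ρ → D.b ρ < 5 / 9 * D.a ρ) (ρ : ℝ) (hρ : 0 ≤ ρ) :
    D.a ρ ≤ D.a 0 := by
  have hε := D.ε_pos
  have hanti : AntitoneOn D.a (Set.Ici 0) := by
    apply antitoneOn_of_deriv_nonpos (convex_Ici 0)
    · intro x hx
      have hx0 : (0:ℝ) ≤ x := hx
      exact (D.ha x (by linarith)).continuousAt.continuousWithinAt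
    · intro x hx
      rw [interior_Ici] at hx
      have hx0 : (0:ℝ) < x := hx
      exact (D.ha x (by linarith)).differentiableAt.differentiableWithinAt
    · intro x hx
      rw [interior_Ici] at hx
      have hx0 : (0:ℝ) < x := hx
      have hx1 : -D.ε < x := by linarith
      rw [(D.ha x hx1).deriv]
      have h1 := D.a_pos x hx1
      have h2 := hb x hx1
      apply mul_nonpos_of_nonneg_of_nonpos h1.le
      linarith only [h1, h2]
  exact hanti (Set.mem_Ici.2 le_rfl) (Set.mem_Ici.2 hρ) hρ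

lemma two_rho_a_le (hb : ∀ ρ, -D.ε < ρ → D.b ρ < 5 / 9 * D.a ρ) (ρ : ℝ) (hρ : 0 ≤ ρ) :
    2 * ρ * D.a ρ ≤ 9 / 2 := by
  have hε := D.ε_pos
  have hd : ∀ x, 0 ≤ x → HasDerivAt (fun x => (D.a x)⁻¹ - 4 / 9 * x)
      (-(D.a x * (D.b x - D.a x)) / (D.a x) ^ 2 - 4 / 9) x := by
    intro x hx
    have hx1 : -D.ε < x := by linarith
    have h1 := D.a_pos x hx1
    have h2 := (D.ha x hx1).fun_inv h1.ne'
    have h3 : HasDerivAt (fun x : ℝ => 4 / 9 * x) (4 / 9) x := by
      simpa only [id_eq, mul_one] using (hasDerivAt_id x).const_mul (4 / 9 : ℝ)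
    exact h2.sub h3
  have hmono : MonotoneOn (fun x => (D.a x)⁻¹ - 4 / 9 * x) (Set.Ici 0) := by
    apply monotoneOn_of_deriv_nonneg (convex_Ici 0)
    · intro x hx
      exact (hd x hx).continuousAt.continuousWithinAt
    · intro x hx
      rw [interior_Ici] at hx
      exact (hd x (le_of_lt hx)).differentiableAt.differentiableWithinAt
    · intro x hx
      rw [interior_Ici] at hx
      have hx0 : (0:ℝ) < x := hx
      have hx1 : -D.ε < x := by linarith only [hε, hx0]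
      rw [(hd x hx0.le).deriv]
      have h1 := D.a_pos x hx1
      have h2 := hb x hx1
      have : -(D.a x * (D.b x - D.a x)) / (D.a x) ^ 2 = 1 - D.b x / D.a x := by
        field_simp
        ring
      rw [this]
      have h3 : D.b x / D.a x ≤ 5 / 9 := by
        rw [div_le_iff₀ h1]; exact h2.le
      linarith only [h3]
  have h := hmono (Set.mem_Ici.2 le_rfl) (Set.mem_Ici.2 hρ) hρ
  simp only [mul_zero, sub_zero] at h
  have h0 := D.a_pos 0 (by linarith only [hε])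
  have h1 := D.a_pos ρ (by linarith only [hρ, hε])
  have h2 : 0 < (D.a 0)⁻¹ := inv_pos.2 h0
  have h3 : 4 / 9 * ρ < (D.a ρ)⁻¹ := by linarith
  have h4 : 4 / 9 * ρ * D.a ρ ≤ 1 := by
    have := mul_le_mul_of_nonneg_right h3.le h1.le
    rwa [inv_mul_cancel₀ h1.ne'] at this
  linarith only [h4]

lemma eta_ge (ρ : ℝ) (hρ : 0 ≤ ρ) : D.η 0 + D.a 0 * D.η 0 * ρ ≤ D.η ρ := by
  have hε := D.ε_pos
  have hd1 : ∀ x, 0 ≤ x → HasDerivAt (fun x => D.a x * D.η x)
      (D.a x * (D.b x - D.a x) * D.η x + D.a x * (D.a x * D.η x)) x := by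
    intro x hx
    exact (D.ha x (by linarith)).mul (D.hη x (by linarith))
  have hmono1 : MonotoneOn (fun x => D.a x * D.η x) (Set.Ici 0) := by
    apply monotoneOn_of_deriv_nonneg (convex_Ici 0)
    · intro x hx
      exact (hd1 x hx).continuousAt.continuousWithinAt
    · intro x hx
      rw [interior_Ici] at hx
      exact (hd1 x (le_of_lt hx)).differentiableAt.differentiableWithinAt
    · intro x hx
      rw [interior_Ici] at hx
      have hx0 : (0:ℝ) < x := hx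
      have hx1 : -D.ε < x := by linarith
      rw [(hd1 x hx0.le).deriv]
      have h1 := D.a_pos x hx1
      have h2 := D.b_pos x hx1
      have h3 := D.η_pos x hx1
      have : D.a x * (D.b x - D.a x) * D.η x + D.a x * (D.a x * D.η x)
        = D.a x * D.b x * D.η x := by ring
      rw [this]
      positivity
  have hd2 : ∀ x, 0 ≤ x → HasDerivAt (fun x => D.η x - D.a 0 * D.η 0 * x)
      (D.a x * D.η x - D.a 0 * D.η 0) x := by
    intro x hx
    have h3 : HasDerivAt (fun x : ℝ => D.a 0 * D.η 0 * x) (D.a 0 * D.η 0) x := by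
      simpa using (hasDerivAt_id x).const_mul (D.a 0 * D.η 0)
    exact (D.hη x (by linarith)).sub h3
  have hmono2 : MonotoneOn (fun x => D.η x - D.a 0 * D.η 0 * x) (Set.Ici 0) := by
    apply monotoneOn_of_deriv_nonneg (convex_Ici 0)
    · intro x hx
      exact (hd2 x hx).continuousAt.continuousWithinAt
    · intro x hx
      rw [interior_Ici] at hx
      exact (hd2 x (le_of_lt hx)).differentiableAt.differentiableWithinAt
    · intro x hx
      rw [interior_Ici] at hx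
      have hx0 : (0:ℝ) < x := hx
      rw [(hd2 x hx0.le).deriv]
      have := hmono1 (Set.mem_Ici.2 le_rfl) (Set.mem_Ici.2 hx0.le) hx0.le
      simp only at this
      linarith
  have h := hmono2 (Set.mem_Ici.2 le_rfl) (Set.mem_Ici.2 hρ) hρ
  simp only [mul_zero, sub_zero] at h
  linarith only [h]

lemma uu_proper (M : ℝ) : Bornology.IsBounded {x | uu D x ≤ M} := by
  have hε := D.ε_pos
  have h0 := D.a_pos 0 (by linarith)
  have h1 := D.η_pos 0 (by linarith)
  have hk : 0 < D.a 0 * D.η 0 := mul_pos h0 h1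
  rw [isBounded_iff_forall_norm_le]
  refine ⟨Real.sqrt (M ^ 2 + 2 * (|M| / (D.a 0 * D.η 0))), ?_⟩
  intro x hx
  have hx' : uu D x ≤ M := hx
  have hu := uu_pos D x
  have hM : 0 < M := lt_of_lt_of_le hu hx'
  have hsq := uu_sq D x
  have hle : uu D x ^ 2 ≤ M ^ 2 := pow_le_pow_left₀ hu.le hx' 2
  have hh0 := hh_pos D x
  have hy : (x 0) ^ 2 ≤ M ^ 2 := by nlinarith only [hsq, hle]
  have hhM : hh D x ≤ M := by
    apply le_of_sq_le_sq _ hM.le
    nlinarith only [hsq, hle]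
  have he := eta_ge D (rho x) (rho_nonneg x)
  have hρ : rho x ≤ |M| / (D.a 0 * D.η 0) := by
    rw [le_div_iff₀ hk, abs_of_pos hM]
    have : D.η (rho x) ≤ M := hhM
    linarith
  rw [EuclideanSpace.norm_eq]
  apply Real.sqrt_le_sqrt
  rw [Fin.sum_univ_succ]
  have e : ∑ i : Fin p, ‖x i.succ‖ ^ 2 = 2 * rho x := by
    rw [sum_sq_eq]
    apply Finset.sum_congr rfl
    intro i _
    rw [Real.norm_eq_abs, sq_abs]
  rw [e, Real.norm_eq_abs, sq_abs]
  linarith only [hy, hρ]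


lemma Mx_quad (x : Fin p → ℝ) (c β α γ : ℝ) (z : Fin (p + 1) → ℝ) :
    ∑ i, ∑ j, Mx x c β α γ i j * z i * z j =
      c * z 0 ^ 2 + 2 * β * z 0 * (∑ i, x i * z i.succ) + α * (∑ i : Fin p, z i.succ ^ 2)
        + γ * (∑ i, x i * z i.succ) ^ 2 := by
  simp only [Fin.sum_univ_succ, Mx_zero_zero, Mx_zero_succ, Mx_succ_zero, Mx_succ_succ]
  set T := ∑ i, x i * z i.succ with hT
  have e1 : ∑ j : Fin p, β * x j * z 0 * z j.succ = β * z 0 * T := by
    rw [hT, Finset.mul_sum]; apply Finset.sum_congr rfl; intro i _; ring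
  have e2 : ∀ i : Fin p, ∑ j : Fin p, ((if i = j then α else 0) + γ * x i * x j) * z i.succ * z j.succ
      = α * z i.succ ^ 2 + γ * (x i * z i.succ) * T := by
    intro i
    simp only [add_mul, Finset.sum_add_distrib]
    have h1 : ∑ j : Fin p, γ * x i * x j * z i.succ * z j.succ = γ * (x i * z i.succ) * T := by
      rw [hT, Finset.mul_sum]; apply Finset.sum_congr rfl; intro j _; ring
    rw [h1]
    simp only [ite_mul, zero_mul, Finset.sum_ite_eq, Finset.mem_univ, ↓reduceIte, add_left_inj]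
    ring
  have e3 : ∑ i : Fin p, (β * x i * z i.succ * z 0 + (α * z i.succ ^ 2 + γ * (x i * z i.succ) * T))
      = β * z 0 * T + α * (∑ i : Fin p, z i.succ ^ 2) + γ * T * T := by
    have : ∀ i : Fin p, β * x i * z i.succ * z 0 + (α * z i.succ ^ 2 + γ * (x i * z i.succ) * T)
        = (β * z 0 + γ * T) * (x i * z i.succ) + α * z i.succ ^ 2 := by intro i; ring
    simp only [this, Finset.sum_add_distrib, ← Finset.mul_sum, ← hT]
    ring
  simp only [e1, e2, e3]
  ring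

lemma key_eq1 (U y h a b T S v k g : ℝ) (hU : 0 < U) :
    9 * k * U ^ 2 * (g * U * (h ^ 2 / U ^ 3 * v ^ 2 +
      2 * (-(y * a * h ^ 2 / U ^ 3)) * v * T + a * h ^ 2 / U * S +
      (a * b * h ^ 2 / U + a ^ 2 * h ^ 2 * y ^ 2 / U ^ 3) * T ^ 2))
      = 9 * (k * h ^ 2 * g) * ((v - y * a * T) ^ 2 + U ^ 2 * (a * (S + b * T ^ 2))) := by
  have hU' : U ≠ 0 := hU.ne'
  have e1 : h ^ 2 / U ^ 3 * v ^ 2 +
      2 * (-(y * a * h ^ 2 / U ^ 3)) * v * T + a * h ^ 2 / U * S +
      (a * b * h ^ 2 / U + a ^ 2 * h ^ 2 * y ^ 2 / U ^ 3) * T ^ 2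
      = h ^ 2 / U ^ 3 * ((v - y * a * T) ^ 2 + U ^ 2 * (a * (S + b * T ^ 2))) := by
    have : a * h ^ 2 / U = h ^ 2 / U ^ 3 * (U ^ 2 * a) := by field_simp
    rw [this]
    have h2 : a * b * h ^ 2 / U = h ^ 2 / U ^ 3 * (U ^ 2 * a * b) := by field_simp
    rw [h2]
    ring
  rw [e1]
  have e2 : U ^ 2 * (g * U * (h ^ 2 / U ^ 3 * ((v - y * a * T) ^ 2 + U ^ 2 * (a * (S + b * T ^ 2)))))
      = h ^ 2 * g * ((v - y * a * T) ^ 2 + U ^ 2 * (a * (S + b * T ^ 2))) := by
    have : U ^ 2 * (g * U * (h ^ 2 / U ^ 3 * ((v - y * a * T) ^ 2 + U ^ 2 * (a * (S + b * T ^ 2)))))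
      = (U ^ 3 / U ^ 3) * (h ^ 2 * g * ((v - y * a * T) ^ 2 + U ^ 2 * (a * (S + b * T ^ 2)))) := by
      ring
    rw [this, div_self (by positivity), one_mul]
  calc _ = 9 * k * (U ^ 2 * (g * U * (h ^ 2 / U ^ 3 *
        ((v - y * a * T) ^ 2 + U ^ 2 * (a * (S + b * T ^ 2)))))) := by ring
    _ = _ := by rw [e2]; ring

/-- the elementary inequality behind affine completeness -/
lemma key_ineq (U y h a b r T S v k g : ℝ) (hU : 0 < U) (ha : 0 < a) (hb : 0 < b)
    (hU2 : U ^ 2 = y ^ 2 + h ^ 2) (hra : 2 * r * a ≤ 9 / 2)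
    (hTS : T ^ 2 ≤ 2 * r * S) (hS : 0 ≤ S) (hg : 1 ≤ k * h ^ 2 * g) :
    (y / U * v + a * h ^ 2 / U * T) ^ 2 ≤ 9 * k * U ^ 2 * (g * U * (h ^ 2 / U ^ 3 * v ^ 2 +
      2 * (-(y * a * h ^ 2 / U ^ 3)) * v * T + a * h ^ 2 / U * S +
      (a * b * h ^ 2 / U + a ^ 2 * h ^ 2 * y ^ 2 / U ^ 3) * T ^ 2)) := by
  rw [key_eq1 U y h a b T S v k g hU]
  have hU' : U ≠ 0 := hU.ne'
  have e2 : y / U * v + a * h ^ 2 / U * T = y / U * (v - y * a * T) + a * U * T := by
    have : h ^ 2 = U ^ 2 - y ^ 2 := by linarith only [hU2]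
    rw [this]
    field_simp
    ring
  rw [e2]
  set A := (v - y * a * T) ^ 2 with hA
  have hA0 : 0 ≤ A := sq_nonneg _
  set Z := a * (S + b * T ^ 2) with hZ
  have hZ0 : 0 ≤ Z := by (clear * - ha hS hb; positivity)
  have hW : 0 ≤ U ^ 2 * Z := by (clear * - hU ha hS hb; positivity)
  have h1 : (a * U * T) ^ 2 ≤ 9 / 2 * (U ^ 2 * Z) := by
    have h2 : a ^ 2 * T ^ 2 ≤ 9 / 2 * Z := by
      have h3 : a ^ 2 * T ^ 2 ≤ (2 * r * a) * (a * S) := by
        have := mul_le_mul_of_nonneg_left hTS (sq_nonneg a)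
        linarith only [this]
      have h4 : (2 * r * a) * (a * S) ≤ 9 / 2 * (a * S) :=
        mul_le_mul_of_nonneg_right hra (by (clear * - ha hS; positivity))
      have h5 : 0 ≤ a * (b * T ^ 2) := by (clear * - ha hb; positivity)
      have h6 : Z = a * S + a * (b * T ^ 2) := by rw [hZ]; ring
      linarith only [h3, h4, h5]
    have : (a * U * T) ^ 2 = U ^ 2 * (a ^ 2 * T ^ 2) := by ring
    rw [this]
    have := mul_le_mul_of_nonneg_left h2 (sq_nonneg U)
    linarith only [this]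
  have h2 : (y / U * (v - y * a * T)) ^ 2 ≤ A := by
    rw [mul_pow, ← hA]
    have : (y / U) ^ 2 ≤ 1 := by
      rw [div_pow, div_le_one (by positivity)]
      have := sq_nonneg h
      linarith only [hU2, this]
    calc (y / U) ^ 2 * A ≤ 1 * A := mul_le_mul_of_nonneg_right this hA0
      _ = A := one_mul _
  have h3 : (y / U * (v - y * a * T) + a * U * T) ^ 2 ≤
      2 * (y / U * (v - y * a * T)) ^ 2 + 2 * (a * U * T) ^ 2 := by
    have := sq_nonneg (y / U * (v - y * a * T) - a * U * T)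
    linarith only [this]
  have h4 : 1 * (A + U ^ 2 * Z) ≤ (k * h ^ 2 * g) * (A + U ^ 2 * Z) :=
    mul_le_mul_of_nonneg_right hg (by linarith only [hA0, hW])
  linarith only [hA0, h1, h2, h3, h4]

lemma GG_bound (hb : ∀ ρ, -D.ε < ρ → D.b ρ < 5 / 9 * D.a ρ)
    (x : EuclideanSpace ℝ (Fin (p + 1))) :
    GG D x ≤ (D.a 0 ^ p * (7 / 2) / D.η 0 ^ 4) * (hh D x ^ 2) ^ (p + 3) := by
  have hε := D.ε_pos
  have h0 := D.a_pos 0 (by linarith)
  have h1 := D.η_pos 0 (by linarith)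
  have h2 := hh_pos D x
  have h3 := aa_pos D x
  have h4 := bb_pos D x
  have hr := rho_nonneg x
  have h5 : aa D x ≤ D.a 0 := a_le_a0 D hb _ hr
  have h6 : 2 * rho x * aa D x ≤ 9 / 2 := two_rho_a_le D hb _ hr
  have h7 : 1 + 2 * rho x * bb D x ≤ 7 / 2 := by
    have : bb D x ≤ 5 / 9 * aa D x := (hb _ (rho_gt D x)).le
    nlinarith only [this, h4, h6]
  have h8 : D.η 0 ≤ hh D x := by
    have := eta_ge D (rho x) hr
    have h9 : 0 ≤ D.a 0 * D.η 0 * rho x := by (clear * - h0 h1 hr; positivity)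
    unfold hh
    linarith only [this, h9]
  have h10 : D.η 0 ^ 4 ≤ hh D x ^ 4 := pow_le_pow_left₀ h1.le h8 4
  have h11 : aa D x ^ p ≤ D.a 0 ^ p := pow_le_pow_left₀ h3.le h5 p
  have h12 := pos1' D x
  unfold GG
  have e : (hh D x ^ 2) ^ (p + 3) = hh D x ^ (2 * p + 2) * hh D x ^ 4 := by
    rw [← pow_mul, ← pow_add]; ring_nf
  rw [e, div_mul_eq_mul_div, le_div_iff₀ (by positivity)]
  calc aa D x ^ p * hh D x ^ (2 * p + 2) * (1 + 2 * rho x * bb D x) * D.η 0 ^ 4
      ≤ D.a 0 ^ p * hh D x ^ (2 * p + 2) * (7 / 2) * hh D x ^ 4 := by (clear * - h11 h2 h7 hr h4 h0 h10 h1; gcongr)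
    _ = D.a 0 ^ p * (7 / 2) * (hh D x ^ (2 * p + 2) * hh D x ^ 4) := by ring

lemma affMetric_ineq (hb : ∀ ρ, -D.ε < ρ → D.b ρ < 5 / 9 * D.a ρ) :
    ∃ C : ℝ, 0 ≤ C ∧ ∀ x v, (fderiv ℝ (uu D) x v) ^ 2 ≤ (C * uu D x) ^ 2 * affMetric (uu D) x v := by
  have hε := D.ε_pos
  have h0 := D.a_pos 0 (by linarith)
  have h1 := D.η_pos 0 (by linarith)
  set K : ℝ := D.a 0 ^ p * (7 / 2) / D.η 0 ^ 4 with hK
  have hKpos : 0 < K := by positivity
  set k : ℝ := K ^ (1 / ((p:ℝ) + 3)) with hk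
  have hkpos : 0 < k := Real.rpow_pos_of_pos hKpos _
  have hp3 : (0:ℝ) < (p:ℝ) + 3 := by (clear * -; positivity)
  refine ⟨3 * Real.sqrt k, by positivity, ?_⟩
  intro x v
  have h2 := hh_pos D x
  have h3 := aa_pos D x
  have h4 := bb_pos D x
  have hr := rho_nonneg x
  have hU := uu_pos D x
  have hG := GG_pos D x
  -- the determinant factor
  set g : ℝ := (GG D x) ^ (-1 / ((p:ℝ) + 3)) with hg
  have hdet : (hess (uu D) x).det ^ (-1 / (((p + 1 : ℕ) : ℝ) + 2)) = g * uu D x := by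
    have e0 : (((p + 1 : ℕ) : ℝ) + 2) = (p:ℝ) + 3 := by push_cast; ring
    rw [e0, det_uu, Real.mul_rpow hG.le (by positivity)]
    congr 1
    rw [← Real.rpow_neg_one, ← Real.rpow_natCast, ← Real.rpow_mul hU.le, ← Real.rpow_mul hU.le]
    have : (((p + 3 : ℕ) : ℝ) * -1 * (-1 / ((p:ℝ) + 3))) = 1 := by
      push_cast
      (clear * -; field_simp)
    rw [this, Real.rpow_one]
  have hgk : 1 ≤ k * hh D x ^ 2 * g := by
    have hb1 := GG_bound D hb x
    rw [← hK] at hb1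
    have hb2 : GG D x ^ (1 / ((p:ℝ) + 3)) ≤ k * hh D x ^ 2 := by
      calc GG D x ^ (1 / ((p:ℝ) + 3)) ≤ (K * (hh D x ^ 2) ^ (p + 3)) ^ (1 / ((p:ℝ) + 3)) :=
            Real.rpow_le_rpow hG.le hb1 (by (clear * -; positivity))
        _ = k * hh D x ^ 2 := by
            rw [Real.mul_rpow hKpos.le (by positivity), ← hk]
            congr 1
            rw [← Real.rpow_natCast, ← Real.rpow_mul (by positivity)]
            have : (((p + 3 : ℕ) : ℝ) * (1 / ((p:ℝ) + 3))) = 1 := by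
              push_cast
              (clear * -; field_simp)
            rw [this, Real.rpow_one]
    have hg0 : 0 < g := Real.rpow_pos_of_pos hG _
    have hgg : GG D x ^ (1 / ((p:ℝ) + 3)) * g = 1 := by
      rw [hg, ← Real.rpow_add hG]
      have : 1 / ((p:ℝ) + 3) + -1 / ((p:ℝ) + 3) = 0 := by ring
      rw [this, Real.rpow_zero]
    calc (1:ℝ) = GG D x ^ (1 / ((p:ℝ) + 3)) * g := hgg.symm
      _ ≤ k * hh D x ^ 2 * g := mul_le_mul_of_nonneg_right hb2 hg0.le
  have hquad : ∑ i, ∑ j, hess (uu D) x i j * v i * v j = hh D x ^ 2 / uu D x ^ 3 * (v 0) ^ 2 +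
      2 * (-(x 0 * aa D x * hh D x ^ 2 / uu D x ^ 3)) * (v 0) * (∑ i : Fin p, x i.succ * v i.succ)
      + aa D x * hh D x ^ 2 / uu D x * (∑ i : Fin p, (v i.succ) ^ 2) +
      (aa D x * bb D x * hh D x ^ 2 / uu D x + aa D x ^ 2 * hh D x ^ 2 * (x 0) ^ 2 / uu D x ^ 3)
        * (∑ i : Fin p, x i.succ * v i.succ) ^ 2 := by
    rw [hess_uu]
    exact Mx_quad (fun i => x i.succ) _ _ _ _ (fun i => v i)
  have hfd : fderiv ℝ (uu D) x v = x 0 / uu D x * v 0 +
      aa D x * hh D x ^ 2 / uu D x * (∑ i : Fin p, x i.succ * v i.succ) := by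
    rw [(DD_uu D x).fderiv]
    simp only [dy, drho, add_apply, smul_apply, PiLp.proj_apply, smul_eq_mul, sum_apply]
  have hCS : (∑ i : Fin p, x i.succ * v i.succ) ^ 2 ≤ 2 * rho x * (∑ i : Fin p, (v i.succ) ^ 2) := by
    rw [sum_sq_eq]
    exact Finset.sum_mul_sq_le_sq_mul_sq _ _ _
  have hkey := key_ineq (uu D x) (x 0) (hh D x) (aa D x) (bb D x) (rho x)
    (∑ i : Fin p, x i.succ * v i.succ) (∑ i : Fin p, (v i.succ) ^ 2) (v 0) k g hU h3 h4
    (uu_sq D x) (two_rho_a_le D hb _ hr) hCS (by (clear * -; positivity)) hgk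
  unfold affMetric
  rw [hdet, hquad, hfd]
  have e9 : (3 * Real.sqrt k * uu D x) ^ 2 = 9 * k * uu D x ^ 2 := by
    rw [mul_pow, mul_pow, Real.sq_sqrt hkpos.le]; ring
  rw [e9]
  exact hkey

theorem exists_affineComplete (p : ℕ) (hp : 9 ≤ p) :
    ∃ u : EuclideanSpace ℝ (Fin (p + 1)) → ℝ, ContDiff ℝ ∞ u ∧ (∀ x, (hess u x).PosDef) ∧
      AffineMaximalOn Set.univ u ∧ AffineComplete Set.univ u ∧ ¬ IsQuadratic u := by
  obtain ⟨D, hb⟩ := exists_odeData' p hp
  obtain ⟨C, hC0, hC⟩ := affMetric_ineq D hb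
  refine ⟨uu D, contDiff_uu D, posDef_uu D, fun x _ => am_uu D (by omega) x, ?_, not_quadratic_uu D⟩
  exact affineComplete_univ_of (uu D) (contDiff_uu D) (posDef_uu D) (uu_pos D) (uu_proper D) C hC0 hC

end Vale.Agent.P252
end
end

section

section

open scoped ContDiff

namespace Vale.Agent.P252

theorem exists_entire (n : ℕ) (hn : 10 ≤ n) :
    ∃ u : EuclideanSpace ℝ (Fin n) → ℝ, ContDiff ℝ ∞ u ∧ (∀ x, (hess u x).PosDef) ∧
      AffineMaximalOn Set.univ u ∧ ¬ IsQuadratic u := by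
  obtain ⟨p, rfl⟩ : ∃ p, n = p + 1 := ⟨n - 1, by omega⟩
  obtain ⟨D⟩ := exists_odeData p (by omega)
  exact pde_of_odeData p (by omega) D

end Vale.Agent.P252
end
end
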